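import Mathlib
import Crest.Prelude.Def_CStarEmbedding

/-!
Generated C⋆-subalgebras, an extension lemma, and existence of the full group C⋆-algebra.
-/

set_option autoImplicit false

namespace Crest.Agent.R73

open scoped ENNReal

section Gen

variable {M : Type} [CStarAlgebra M] {ι : Type}

/-- the C⋆-subalgebra generated by a family -/
noncomputable def Gen (a : ι → M) : StarSubalgebra ℂ M :=
  (StarAlgebra.adjoin ℂ (Set.range a)).topologicalClosure

instance isClosed_Gen (a : ι → M) : IsClosed (Gen a : Set M) :=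
  StarSubalgebra.isClosed_topologicalClosure _

noncomputable instance cstar_Gen (a : ι → M) : CStarAlgebra (Gen a) :=
  StarSubalgebra.cstarAlgebra (Gen a)

theorem mem_Gen (a : ι → M) (i : ι) : a i ∈ Gen a :=
  StarSubalgebra.le_topologicalClosure _ (StarAlgebra.subset_adjoin ℂ _ ⟨i, rfl⟩)

/-- the generators as elements of the generated algebra -/
def gen (a : ι → M) (i : ι) : Gen a := ⟨a i, mem_Gen a i⟩

@[simp] theorem coe_gen (a : ι → M) (i : ι) : (gen a i : M) = a i := rfl

theorem Gen_le {a : ι → M} {T : StarSubalgebra ℂ M} (hT : IsClosed (T : Set M)) (h : ∀ i, a i ∈ T) :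
    Gen a ≤ T :=
  StarSubalgebra.topologicalClosure_minimal
    (StarAlgebra.adjoin_le (by rintro _ ⟨i, rfl⟩; exact h i)) hT

theorem dense_gen (a : ι → M) :
    (StarAlgebra.adjoin ℂ (Set.range (gen a))).topologicalClosure = ⊤ := by
  rw [eq_top_iff]
  intro x _
  have hcl : IsClosed (((StarAlgebra.adjoin ℂ (Set.range (gen a))).topologicalClosure.map
      (Gen a).subtype : StarSubalgebra ℂ M) : Set M) := by
    rw [StarSubalgebra.coe_map]
    exact (isClosed_Gen a).isClosedEmbedding_subtypeVal.isClosedMap _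
      (StarSubalgebra.isClosed_topologicalClosure _)
  have := Gen_le hcl (a := a) (fun i => ⟨gen a i,
    StarSubalgebra.le_topologicalClosure _ (StarAlgebra.subset_adjoin ℂ _ ⟨i, rfl⟩), rfl⟩) x.2
  obtain ⟨y, hy, e⟩ := this
  rwa [show y = x from Subtype.ext e] at hy

theorem exists_extension (a : ι → M) {B : Type} [CStarAlgebra B] (b : ι → B)
    (h : ∀ z ∈ StarAlgebra.adjoin ℂ (Set.range fun i => (a i, b i)), ‖z.2‖ ≤ ‖z.1‖) :
    ∃ φ : Gen a →⋆ₐ[ℂ] B, ∀ i, φ (gen a i) = b i := by
  set c : ι → M × B := fun i => (a i, b i) with hc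
  have h1 : ∀ z ∈ Gen c, ‖z.2‖ ≤ ‖z.1‖ := by
    intro z hz
    exact closure_minimal (t := {z : M × B | ‖z.2‖ ≤ ‖z.1‖}) h
      (isClosed_le (by fun_prop) (by fun_prop)) hz
  have h2 : ∀ z ∈ Gen c, z.1 ∈ Gen a := by
    intro z hz
    exact Gen_le (a := c) (T := (Gen a).comap (StarAlgHom.fst ℂ M B))
      ((isClosed_Gen a).preimage continuous_fst) (fun i => mem_Gen a i) hz
  let p : Gen c →⋆ₐ[ℂ] Gen a :=
    ((StarAlgHom.fst ℂ M B).comp (Gen c).subtype).codRestrict (Gen a) fun z => h2 z z.2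
  have hiso : Isometry fun z : Gen c => (z : M × B).1 := by
    refine Isometry.of_dist_eq fun z w => ?_
    have := h1 _ (z - w).2
    rw [dist_eq_norm, dist_eq_norm]
    show ‖(z - w : Gen c).1.1‖ = ‖(z - w : Gen c).1‖
    rw [Prod.norm_def, max_eq_left this]
  have hinj : Function.Injective p := fun z w e => hiso.injective (congrArg Subtype.val e)
  have hsurj : Function.Surjective p := by
    intro x
    have hcl : IsClosed (((StarAlgHom.fst ℂ M B).comp (Gen c).subtype).range : Set M) :=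
      hiso.isClosedEmbedding.isClosed_range
    obtain ⟨z, hz⟩ := Gen_le hcl (a := a) (fun i => ⟨gen c i, rfl⟩) x.2
    exact ⟨z, Subtype.ext hz⟩
  let e := StarAlgEquiv.ofBijective p ⟨hinj, hsurj⟩
  refine ⟨((StarAlgHom.snd ℂ M B).comp (Gen c).subtype).comp (e.symm : Gen a →⋆ₐ[ℂ] Gen c),
    fun i => ?_⟩
  have : e.symm (gen a i) = gen c i := by
    rw [StarAlgEquiv.symm_apply_eq]; rfl
  show ((e.symm (gen a i) : Gen c) : M × B).2 = b i
  rw [this]; rfl

end Gen

section Full

variable (Γ : Type) [Group Γ]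

/-- the C⋆-seminorms on the free algebra that come from unitary representations -/
def Idx : Type :=
  {N : FreeAlgebra ℂ Γ → ℝ // ∃ (B : Type) (_ : CStarAlgebra B) (_ : Nontrivial B)
    (w : Γ →* unitary B), N = fun x => ‖FreeAlgebra.lift ℂ (fun g => (w g : B)) x‖}

variable {Γ}

/-- a chosen algebra realising a seminorm -/
def Idx.B (i : Idx Γ) : Type := i.2.choose

noncomputable instance (i : Idx Γ) : CStarAlgebra i.B := i.2.choose_spec.choose

instance (i : Idx Γ) : Nontrivial i.B := i.2.choose_spec.choose_spec.choose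

/-- a chosen representation realising a seminorm -/
noncomputable def Idx.w (i : Idx Γ) : Γ →* unitary i.B :=
  i.2.choose_spec.choose_spec.choose_spec.choose

theorem Idx.spec (i : Idx Γ) : i.1 = fun x => ‖FreeAlgebra.lift ℂ (fun g => (i.w g : i.B)) x‖ :=
  i.2.choose_spec.choose_spec.choose_spec.choose_spec

variable (Γ)

/-- the bounded product -/
abbrev BigM : Type := lp (fun i : Idx Γ => i.B) ∞

noncomputable instance : CStarAlgebra (BigM Γ) where

/-- the universal representation -/
noncomputable def bigU (g : Γ) : BigM Γ :=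
  ⟨fun i => (i.w g : i.B), memℓp_infty ⟨1, by
    rintro _ ⟨i, rfl⟩; exact (CStarRing.norm_coe_unitary (i.w g)).le⟩⟩

theorem bigU_apply (g : Γ) (i : Idx Γ) : (bigU Γ g : ∀ i : Idx Γ, i.B) i = i.w g := rfl

theorem bigU_mul (g h : Γ) : bigU Γ (g * h) = bigU Γ g * bigU Γ h := by
  refine lp.ext (funext fun i => ?_)
  rw [lp.infty_coeFn_mul, Pi.mul_apply, bigU_apply, bigU_apply, bigU_apply, map_mul]; rfl

theorem bigU_one : bigU Γ 1 = 1 := by
  refine lp.ext (funext fun i => ?_)
  rw [lp.infty_coeFn_one, Pi.one_apply, bigU_apply, map_one]; rfl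

theorem bigU_star (g : Γ) : star (bigU Γ g) = bigU Γ g⁻¹ := by
  refine lp.ext (funext fun i => ?_)
  rw [lp.coeFn_star, Pi.star_apply, bigU_apply, bigU_apply, map_inv]; rfl

/-- evaluation -/
noncomputable def evalB (i : Idx Γ) : BigM Γ →ₐ[ℂ] i.B where
  toFun f := (f : ∀ i : Idx Γ, i.B) i
  map_one' := rfl
  map_mul' _ _ := rfl
  map_zero' := rfl
  map_add' _ _ := rfl
  commutes' _ := rfl

/-- the universal representation in the generated algebra -/
noncomputable def fullU : Γ →* unitary (Gen (bigU Γ)) where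
  toFun g := ⟨gen (bigU Γ) g, by
    constructor <;> apply Subtype.ext <;>
      simp [bigU_star, ← bigU_mul, bigU_one]⟩
  map_one' := Subtype.ext (Subtype.ext (bigU_one Γ))
  map_mul' g h := Subtype.ext (Subtype.ext (bigU_mul Γ g h))

theorem isFull : Crest.AnalysisR.CStarEmbedding.IsFullGroupCStar (Gen (bigU Γ)) (fullU Γ) := by
  refine ⟨dense_gen _, fun B _ w => ?_⟩
  refine exists_extension (bigU Γ) (fun g => (w g : B)) fun z hz => ?_
  rcases subsingleton_or_nontrivial B with hB | hB
  · rw [Subsingleton.elim z.2 0, norm_zero]; exact norm_nonneg _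
  have h1 : z ∈ (FreeAlgebra.lift ℂ fun g => (bigU Γ g, (w g : B))).range := by
    rw [← Algebra.adjoin_range_eq_range_freeAlgebra_lift]
    have : z ∈ (StarAlgebra.adjoin ℂ (Set.range fun g => (bigU Γ g, (w g : B)))).toSubalgebra := hz
    rw [StarAlgebra.adjoin_toSubalgebra] at this
    refine Algebra.adjoin_mono ?_ this
    rintro y (hy | hy)
    · exact hy
    · obtain ⟨g, hg⟩ := hy
      refine ⟨g⁻¹, ?_⟩
      rw [← star_star y, ← hg]
      ext1
      · exact (bigU_star Γ g).symm
      · simp only [map_inv]; rfl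
  obtain ⟨x, rfl⟩ := h1
  let i : Idx Γ := ⟨fun x => ‖FreeAlgebra.lift ℂ (fun g => (w g : B)) x‖, B, _, hB, w, rfl⟩
  have e1 : ((AlgHom.snd ℂ (BigM Γ) B).comp
      (FreeAlgebra.lift ℂ fun g => (bigU Γ g, (w g : B)))) =
      FreeAlgebra.lift ℂ (fun g => (w g : B)) := by ext; simp
  have e2 : (evalB Γ i).comp ((AlgHom.fst ℂ (BigM Γ) B).comp
      (FreeAlgebra.lift ℂ fun g => (bigU Γ g, (w g : B)))) =
      FreeAlgebra.lift ℂ (fun g => (i.w g : i.B)) := by ext; simp; rfl
  have e3 := congrFun i.spec x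
  have e4 := lp.norm_apply_le_norm ENNReal.top_ne_zero
    ((FreeAlgebra.lift ℂ fun g => (bigU Γ g, (w g : B))) x).1 i
  calc _ = ‖FreeAlgebra.lift ℂ (fun g => (w g : B)) x‖ := congrArg norm (DFunLike.congr_fun e1 x)
    _ = ‖FreeAlgebra.lift ℂ (fun g => (i.w g : i.B)) x‖ := e3
    _ = _ := congrArg norm (DFunLike.congr_fun e2 x).symm
    _ ≤ _ := e4

end Full

end Crest.Agent.R73
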