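import Mathlib

/-!
Isometries of `ℓ²(Ω)` induced by injective self-maps of `Ω`, and a compression map between
operators on a Hilbert space and a C⋆-algebra.
-/

set_option autoImplicit false

namespace Crest.Agent.R73

open scoped InnerProductSpace ComplexOrder MatrixOrder Matrix
open Finset

section Shift

/-- the Hilbert space `ℓ²(Ω)` -/
abbrev L2 (Ω : Type) : Type := lp (fun _ : Ω => ℂ) 2

variable {Ω : Type}

open Classical in
/-- basis vectors -/
noncomputable def dl (x : Ω) : L2 Ω := lp.single 2 x 1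

open Classical in
theorem inner_dl (x y : Ω) : ⟪dl x, dl y⟫_ℂ = if x = y then 1 else 0 := by
  rw [dl, lp.inner_single_left, dl, lp.single_apply, Pi.single_apply]
  split_ifs <;> simp

theorem orthonormal_dl : Orthonormal ℂ (dl : Ω → L2 Ω) := by
  classical
  rw [orthonormal_iff_ite]; intro x y; rw [inner_dl]

theorem L2_ext {E : Type} [NormedAddCommGroup E] [NormedSpace ℂ E] {T T' : L2 Ω →L[ℂ] E}
    (h : ∀ x, T (dl x) = T' (dl x)) : T = T' := by
  classical
  refine lp.ext_continuousLinearMap (by simp) fun i => ?_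
  ext
  simpa [dl] using h i

theorem L2_ext_vec {v w : L2 Ω} (h : ∀ x, ⟪dl x, v⟫_ℂ = ⟪dl x, w⟫_ℂ) : v = w := by
  refine lp.ext (funext fun x => ?_)
  simpa [dl, lp.inner_single_left] using h x

/-- isometry induced by an injective map -/
noncomputable def shiftIso (σ : Ω → Ω) (hσ : Function.Injective σ) : L2 Ω →ₗᵢ[ℂ] L2 Ω :=
  (orthonormal_dl.comp σ hσ).orthogonalFamily.linearIsometry

/-- operator induced by an injective map -/
noncomputable def shiftOp (σ : Ω → Ω) (hσ : Function.Injective σ) : L2 Ω →L[ℂ] L2 Ω :=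
  (shiftIso σ hσ).toContinuousLinearMap

theorem shiftOp_dl (σ : Ω → Ω) (hσ : Function.Injective σ) (x : Ω) :
    shiftOp σ hσ (dl x) = dl (σ x) := by
  classical
  show shiftIso σ hσ (dl x) = _
  rw [shiftIso, dl, OrthogonalFamily.linearIsometry_apply_single]
  simp

theorem star_shiftOp_mul (σ : Ω → Ω) (hσ : Function.Injective σ) :
    star (shiftOp σ hσ) * shiftOp σ hσ = 1 :=
  (ContinuousLinearMap.norm_map_iff_adjoint_comp_self _).mp (shiftIso σ hσ).norm_map

theorem star_shiftOp_dl (σ : Ω → Ω) (hσ : Function.Injective σ) (x : Ω) :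
    star (shiftOp σ hσ) (dl (σ x)) = dl x := by
  rw [← shiftOp_dl σ hσ, ← mul_apply_eq_comp, star_shiftOp_mul]; rfl

theorem star_shiftOp_dl_of_notMem (σ : Ω → Ω) (hσ : Function.Injective σ) (y : Ω)
    (hy : ∀ x, σ x ≠ y) : star (shiftOp σ hσ) (dl y) = 0 := by
  refine L2_ext_vec fun x => ?_
  rw [ContinuousLinearMap.star_eq_adjoint, ContinuousLinearMap.adjoint_inner_right, shiftOp_dl,
    inner_dl, if_neg (hy x), inner_zero_right]

/-- the unitary representation on `ℓ²` of a set with an action -/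
noncomputable def permRep (Γ : Type) [Group Γ] (Ω : Type) [MulAction Γ Ω] :
    Γ →* unitary (L2 Ω →L[ℂ] L2 Ω) where
  toFun g := ⟨shiftOp (g • ·) (MulAction.injective g), star_shiftOp_mul _ _, by
    refine L2_ext fun x => ?_
    have := star_shiftOp_dl (g • ·) (MulAction.injective g) (g⁻¹ • x)
    simp only [smul_inv_smul] at this
    rw [mul_apply_eq_comp, this, shiftOp_dl]; simp⟩
  map_one' := Subtype.ext (L2_ext fun x => by simp [shiftOp_dl])
  map_mul' g h := Subtype.ext (L2_ext fun x => by simp [shiftOp_dl, mul_smul])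

theorem permRep_dl (Γ : Type) [Group Γ] [MulAction Γ Ω] (g : Γ) (x : Ω) :
    (permRep Γ Ω g : L2 Ω →L[ℂ] L2 Ω) (dl x) = dl (g • x) := shiftOp_dl _ _ _

theorem inner_star_star (v w : L2 Ω) : ⟪star v, star w⟫_ℂ = ⟪w, v⟫_ℂ := by
  rw [lp.inner_eq_tsum, lp.inner_eq_tsum]
  refine tsum_congr fun i => ?_
  simp [lp.star_apply, mul_comm]

end Shift

section Theta

variable {H : Type} [NormedAddCommGroup H] [InnerProductSpace ℂ H]
  {B : Type} [CStarAlgebra B] {K : Type} [Fintype K]

/-- compression to a finite orthonormal family followed by a completely positive map -/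
noncomputable def Theta (e : K → H) (r : K → B) (a : H →L[ℂ] H) : B :=
  ∑ μ, ∑ ν, ⟪e μ, a (e ν)⟫_ℂ • (r μ * star (r ν))

theorem Theta_add (e : K → H) (r : K → B) (a a' : H →L[ℂ] H) :
    Theta e r (a + a') = Theta e r a + Theta e r a' := by
  simp [Theta, inner_add_right, add_smul, sum_add_distrib]

theorem Theta_sub (e : K → H) (r : K → B) (a a' : H →L[ℂ] H) :
    Theta e r (a - a') = Theta e r a - Theta e r a' := by
  simp [Theta, inner_sub_right, sub_smul, sum_sub_distrib]

theorem Theta_smul (e : K → H) (r : K → B) (c : ℂ) (a : H →L[ℂ] H) :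
    Theta e r (c • a) = c • Theta e r a := by
  simp [Theta, inner_smul_right, smul_sum, smul_smul]

theorem psd_sum_nonneg [PartialOrder B] [StarOrderedRing B] (P : Matrix K K ℂ) (hP : P.PosSemidef)
    (r : K → B) : 0 ≤ ∑ ν, ∑ ν', P ν ν' • (r ν * star (r ν')) := by
  classical
  obtain ⟨c, rfl⟩ := CStarAlgebra.nonneg_iff_eq_star_mul_self.mp hP.nonneg
  have : ∑ ν, ∑ ν', (star c * c) ν ν' • (r ν * star (r ν')) =
      ∑ j, (∑ ν, star (c j ν) • r ν) * star (∑ ν, star (c j ν) • r ν) := by
    simp only [Matrix.mul_apply, Matrix.star_apply, star_sum, star_smul, star_star, sum_mul,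
      mul_sum, sum_smul, smul_mul_smul_comm]
    symm
    rw [sum_comm]
    refine (Finset.sum_congr rfl fun ν' _ => sum_comm).trans ?_
    rw [sum_comm]
  rw [this]
  exact Finset.sum_nonneg fun j _ => mul_star_self_nonneg _

theorem norm_Theta_le (e : K → H) (he : Orthonormal ℂ e) (r : K → B)
    (hr : ∑ μ, r μ * star (r μ) = 1) (a : H →L[ℂ] H) : ‖Theta e r a‖ ≤ ‖a‖ := by
  classical
  let _ := CStarAlgebra.spectralOrder B
  have := CStarAlgebra.spectralOrderedRing B
  let m : Matrix K K ℂ := Matrix.of fun μ ν => ⟪e μ, a (e ν)⟫_ℂ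
  let z : K → B := fun μ => ∑ ν, m μ ν • star (r ν)
  set y := Theta e r a with hy
  have hyz : y = ∑ μ, r μ * z μ := by
    simp only [hy, Theta, z, mul_sum, mul_smul_comm, m, Matrix.of_apply]
  have h1 : star y * y ≤ ∑ μ, star (z μ) * z μ := by
    have : ∑ μ, star (z μ - star (r μ) * y) * (z μ - star (r μ) * y) =
        ∑ μ, star (z μ) * z μ - star y * y := by
      have e1 : ∑ μ, star (z μ) * (star (r μ) * y) = star y * y := by
        conv_rhs => enter [1]; rw [hyz]
        simp only [star_sum, star_mul, sum_mul, mul_assoc]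
      have e2 : ∑ μ, star y * r μ * z μ = star y * y := by
        conv_rhs => enter [2]; rw [hyz]
        simp only [mul_sum, mul_assoc]
      have e3 : ∑ μ, star y * r μ * (star (r μ) * y) = star y * y := by
        have : ∑ μ, star y * r μ * (star (r μ) * y) = star y * (∑ μ, r μ * star (r μ)) * y := by
          simp only [mul_sum, sum_mul, mul_assoc]
        rw [this, hr, mul_one]
      simp only [star_sub, star_mul, star_star, sub_mul, mul_sub, sum_sub_distrib, e1, e2, e3]
      abel
    rw [← sub_nonneg, ← this]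
    exact Finset.sum_nonneg fun μ _ => star_mul_self_nonneg _
  have h2 : ∑ μ, star (z μ) * z μ = ∑ ν, ∑ ν', (mᴴ * m) ν ν' • (r ν * star (r ν')) := by
    simp only [z, Matrix.mul_apply, Matrix.conjTranspose_apply, star_sum, star_smul, star_star,
      sum_mul, mul_sum, sum_smul, smul_mul_smul_comm]
    rw [sum_comm]
    refine (Finset.sum_congr rfl fun ν' _ => sum_comm).trans ?_
    rw [sum_comm]
  have hP : (((‖a‖ ^ 2 : ℝ) : ℂ) • (1 : Matrix K K ℂ) - mᴴ * m).PosSemidef := by
    refine .of_dotProduct_mulVec_nonneg ?_ fun v => ?_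
    · refine Matrix.IsHermitian.sub ?_ (Matrix.isHermitian_conjTranspose_mul_self m)
      simp [Matrix.IsHermitian]
    · have b1 := he.sum_inner_products_le (s := univ) (a (∑ ν, v ν • e ν))
      have b2 : ‖∑ ν, v ν • e ν‖ ^ 2 = ∑ ν, ‖v ν‖ ^ 2 := by
        simpa using he.orthogonalFamily.norm_sum v univ
      have b3 : ‖a (∑ ν, v ν • e ν)‖ ^ 2 ≤ ‖a‖ ^ 2 * ∑ ν, ‖v ν‖ ^ 2 := by
        rw [← b2, ← mul_pow]; gcongr; exact a.le_opNorm _
      have b4 : ∀ μ, ⟪e μ, a (∑ ν, v ν • e ν)⟫_ℂ = (m *ᵥ v) μ := by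
        intro μ
        simp [m, Matrix.mulVec, dotProduct, inner_sum, inner_smul_right, mul_comm]
      have b5 : ∀ w : K → ℂ, star w ⬝ᵥ w = ((∑ ν, ‖w ν‖ ^ 2 : ℝ) : ℂ) := by
        intro w
        simp [dotProduct, Complex.conj_mul']
      rw [Matrix.sub_mulVec, dotProduct_sub, Matrix.smul_mulVec, Matrix.one_mulVec,
        dotProduct_smul, ← Matrix.mulVec_mulVec, Matrix.dotProduct_mulVec,
        Matrix.vecMul_conjTranspose, star_star, b5, b5, smul_eq_mul, ← Complex.ofReal_mul,
        ← Complex.ofReal_sub, Complex.zero_le_real, sub_nonneg]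
      simp only [b4] at b1
      exact b1.trans b3
  have h3 := psd_sum_nonneg _ hP r
  have h4 : ∑ ν, ∑ ν', (((‖a‖ ^ 2 : ℝ) : ℂ) • (1 : Matrix K K ℂ)) ν ν' • (r ν * star (r ν')) =
      algebraMap ℝ B (‖a‖ ^ 2) := by
    simp only [Matrix.smul_apply, Matrix.one_apply, smul_eq_mul, mul_ite, mul_one, mul_zero,
      ite_smul, zero_smul, sum_ite_eq, mem_univ, if_true, ← smul_sum, hr]
    rw [Algebra.algebraMap_eq_smul_one, Complex.coe_smul]
  simp only [Matrix.sub_apply, sub_smul, sum_sub_distrib, h4, ← h2, sub_nonneg] at h3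
  have h5 := (CStarAlgebra.norm_le_iff_le_algebraMap (star y * y) (sq_nonneg ‖a‖)
    (star_mul_self_nonneg y)).mpr (h1.trans h3)
  rw [CStarRing.norm_star_mul_self, ← sq] at h5
  exact (pow_le_pow_iff_left₀ (norm_nonneg _) (norm_nonneg _) two_ne_zero).mp h5

end Theta

end Crest.Agent.R73
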