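import Mathlib
import Crest.Agent.R73.Shift
import Crest.Agent.R73.CStarUniv

/-!
A concrete model of the universal algebra on two isometries with complementary ranges, its
universal property and its completely positive approximation property.
-/

set_option autoImplicit false

namespace Crest.Agent.R73

open scoped InnerProductSpace
open Finset Filter Topology

/-- words of a given length -/
def Wd : ℕ → Type
  | 0 => Unit
  | l + 1 => Bool × Wd l

instance instFintypeWd : ∀ l, Fintype (Wd l)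
  | 0 => inferInstanceAs (Fintype Unit)
  | l + 1 => @instFintypeProd Bool (Wd l) _ (instFintypeWd l)

theorem sum_Wd_succ {M : Type} [AddCommMonoid M] (l : ℕ) (f : Wd (l + 1) → M) :
    ∑ y, f y = ∑ i : Bool, ∑ y : Wd l, f (i, y) :=
  Fintype.sum_prod_type (f := (f : Bool × Wd l → M))

theorem sum_Wd_zero {M : Type} [AddCommMonoid M] (f : Wd 0 → M) : ∑ y, f y = f () :=
  @Fintype.sum_unique M Unit _ _ _ f

/-- product of generators along a word -/
def wd {B : Type} [Monoid B] (t : Bool → B) : ∀ l, Wd l → B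
  | 0, _ => 1
  | l + 1, μ => t μ.1 * wd t l μ.2

/-- the relations -/
structure IsCuntz {B : Type} [Ring B] [StarRing B] (t : Bool → B) : Prop where
  iso : ∀ i, star (t i) * t i = 1
  sum : ∑ i, t i * star (t i) = 1

theorem IsCuntz.orth {B : Type} [CStarAlgebra B] {t : Bool → B} (h : IsCuntz t) {i j : Bool}
    (hij : i ≠ j) : star (t i) * t j = 0 := by
  have h1 : star (t j) * (∑ k, t k * star (t k)) * t j = 1 := by rw [h.sum, mul_one, h.iso]
  have h2 : star (t j) * (∑ k, t k * star (t k)) * t j =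
      1 + star (star (t i) * t j) * (star (t i) * t j) := by
    have e : star (t j) * (t j * star (t j)) * t j = 1 := by
      rw [← mul_assoc, h.iso, one_mul, h.iso]
    cases i <;> cases j <;> simp only [ne_eq, not_true_eq_false] at hij <;>
      simp only [Fintype.sum_bool, mul_add, add_mul, e, star_mul, star_star] <;>
      simp only [mul_assoc, add_comm]
  rw [h2, add_eq_left] at h1
  exact (CStarRing.star_mul_self_eq_zero_iff _).mp h1

theorem IsCuntz.sum_wd {B : Type} [Ring B] [StarRing B] {t : Bool → B} (h : IsCuntz t) :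
    ∀ l, ∑ μ, wd t l μ * star (wd t l μ) = 1
  | 0 => by rw [sum_Wd_zero]; simp [wd]
  | l + 1 => by
    rw [sum_Wd_succ, ← h.sum]
    refine Finset.sum_congr rfl fun i _ => ?_
    have : ∑ y : Wd l, wd t (l + 1) (i, y) * star (wd t (l + 1) (i, y)) =
        t i * (∑ y : Wd l, wd t l y * star (wd t l y)) * star (t i) := by
      simp only [wd, star_mul, mul_sum, sum_mul, mul_assoc]
    rw [this, h.sum_wd l, mul_one]

/-- the index set of the concrete model -/
abbrev Om : Type := (ℕ → Bool) × ℤ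

/-- prepending a letter -/
def sig (i : Bool) (x : Om) : Om := (fun n => Nat.casesOn n i x.1, x.2 + 1)

theorem sig_inj {i j : Bool} {x y : Om} (h : sig i x = sig j y) : i = j ∧ x = y := by
  have h1 := congrArg Prod.fst h
  have h2 := congrArg Prod.snd h
  refine ⟨congrFun h1 0, Prod.ext (funext fun n => congrFun h1 (n + 1)) ?_⟩
  simpa [sig] using h2

theorem sig_surj (x : Om) : ∃ i y, x = sig i y := by
  refine ⟨x.1 0, (fun n => x.1 (n + 1), x.2 - 1), Prod.ext (funext fun n => ?_) (by simp [sig])⟩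
  cases n <;> rfl

/-- the concrete isometries -/
noncomputable def SS (i : Bool) : L2 Om →L[ℂ] L2 Om := shiftOp (sig i) fun _ _ h => (sig_inj h).2

theorem SS_dl (i : Bool) (x : Om) : SS i (dl x) = dl (sig i x) := shiftOp_dl _ _ _

theorem isCuntz_SS : IsCuntz SS where
  iso i := star_shiftOp_mul _ _
  sum := by
    refine L2_ext fun x => ?_
    obtain ⟨i, y, rfl⟩ := sig_surj x
    rw [_root_.sum_apply, Finset.sum_eq_single i _ (by simp)]
    · rw [mul_apply_eq_comp, SS, star_shiftOp_dl, shiftOp_dl]; rfl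
    · intro j _ hj
      rw [mul_apply_eq_comp, SS, star_shiftOp_dl_of_notMem, map_zero]
      exact fun z hz => hj (sig_inj hz).1

/-- points indexed by words -/
def pt : ∀ l, Wd l → Om
  | 0, _ => (fun _ => false, 0)
  | l + 1, μ => sig μ.1 (pt l μ.2)

theorem pt_snd : ∀ l (μ : Wd l), (pt l μ).2 = l
  | 0, _ => rfl
  | l + 1, μ => by
    show (pt l μ.2).2 + 1 = _
    rw [pt_snd l]; simp

theorem pt_inj : ∀ l, Function.Injective (pt l)
  | 0 => fun _ _ _ => rfl
  | l + 1 => fun _ _ h => Prod.ext (sig_inj h).1 (pt_inj l (sig_inj h).2)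

section Psi

variable {B : Type} [CStarAlgebra B] (t : Bool → B)

/-- the block of the approximating map between two levels -/
noncomputable def Psi (l l' : ℕ) (a : L2 Om →L[ℂ] L2 Om) : B :=
  ∑ μ : Wd l, ∑ ν : Wd l', ⟪dl (pt l μ), a (dl (pt l' ν))⟫_ℂ • (wd t l μ * star (wd t l' ν))

variable {t}

theorem Psi_one (h : IsCuntz t) (l l' : ℕ) : Psi t l l' 1 = if l = l' then 1 else 0 := by
  classical
  split_ifs with hl
  · subst hl
    rw [← h.sum_wd l, Psi]
    refine Finset.sum_congr rfl fun μ _ => ?_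
    simp [inner_dl, (pt_inj l).eq_iff]
  · refine Finset.sum_eq_zero fun μ _ => Finset.sum_eq_zero fun ν _ => ?_
    have : pt l μ ≠ pt l' ν := fun e => hl (by
      have := congrArg Prod.snd e
      rw [pt_snd, pt_snd] at this; exact_mod_cast this)
    simp [inner_dl, this]

theorem Psi_star_mul (h : IsCuntz t) (l l' : ℕ) (i : Bool) (a : L2 Om →L[ℂ] L2 Om) :
    Psi t l l' (star (SS i) * a) = star (t i) * Psi t (l + 1) l' a := by
  rw [Psi, Psi, sum_Wd_succ, mul_sum, Finset.sum_eq_single i _ (by simp), mul_sum]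
  · refine Finset.sum_congr rfl fun μ _ => ?_
    rw [mul_sum]
    refine Finset.sum_congr rfl fun ν _ => ?_
    rw [mul_apply_eq_comp, ContinuousLinearMap.star_eq_adjoint,
      ContinuousLinearMap.adjoint_inner_right, SS_dl, mul_smul_comm]
    simp only [wd, ← mul_assoc, h.iso, one_mul]
    rfl
  · intro j _ hj
    simp only [mul_sum, wd, mul_smul_comm, ← mul_assoc, h.orth hj.symm, zero_mul, smul_zero,
      sum_const_zero]

theorem Psi_mul (h : IsCuntz t) (l l' : ℕ) (i : Bool) (a : L2 Om →L[ℂ] L2 Om) :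
    Psi t (l + 1) l' (SS i * a) = t i * Psi t l l' a := by
  have h1 : Psi t (l + 1) l' (SS i * a) =
      ∑ j, t j * Psi t l l' (star (SS j) * (SS i * a)) := by
    simp only [Psi_star_mul h]
    simp only [← mul_assoc, ← sum_mul, h.sum, one_mul]
  rw [h1, Finset.sum_eq_single i _ (by simp), ← mul_assoc, isCuntz_SS.iso, one_mul]
  intro j _ hj
  rw [← mul_assoc, isCuntz_SS.orth hj, zero_mul]
  simp [Psi]

variable (t)

/-- homogeneous pairs -/
def Hom : Set ((L2 Om →L[ℂ] L2 Om) × B) :=
  {z | ∃ p q : ℕ, ∀ l l', Psi t (l + p) (l' + q) z.1 = if l = l' then z.2 else 0}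

variable {t}

theorem adjoin_le_span (h : IsCuntz t) {z : (L2 Om →L[ℂ] L2 Om) × B}
    (hz : z ∈ StarAlgebra.adjoin ℂ (Set.range fun i => (SS i, t i))) :
    z ∈ Submodule.span ℂ (Hom t) := by
  have h1 : (1 : (L2 Om →L[ℂ] L2 Om) × B) ∈ Hom t := ⟨0, 0, fun l l' => Psi_one h l l'⟩
  have h2 : ∀ i, ∀ y ∈ Hom t, (SS i, t i) * y ∈ Hom t := by
    rintro i y ⟨p, q, hy⟩
    refine ⟨p + 1, q, fun l l' => ?_⟩
    show Psi t (l + p + 1) (l' + q) (SS i * y.1) = if l = l' then t i * y.2 else 0
    rw [Psi_mul h, hy]; simp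
  have h3 : ∀ i, ∀ y ∈ Hom t, star (SS i, t i) * y ∈ Hom t := by
    rintro i y ⟨p, q, hy⟩
    refine ⟨p, q + 1, fun l l' => ?_⟩
    show Psi t (l + p) (l' + (q + 1)) (star (SS i) * y.1) = if l = l' then star (t i) * y.2 else 0
    have := hy (l + 1) (l' + 1)
    rw [show l + 1 + p = l + p + 1 by ring, show l' + 1 + q = l' + (q + 1) by ring] at this
    rw [Psi_star_mul h, this]; simp
  have h4 : ∀ x : (L2 Om →L[ℂ] L2 Om) × B, (∀ y ∈ Hom t, x * y ∈ Hom t) →
      ∀ y ∈ Submodule.span ℂ (Hom t), x * y ∈ Submodule.span ℂ (Hom t) := by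
    intro x hx y hy
    induction hy using Submodule.span_induction with
    | mem y hy => exact Submodule.subset_span (hx y hy)
    | zero => simp
    | add y y' _ _ a b => rw [mul_add]; exact add_mem a b
    | smul c y _ a => rw [mul_smul_comm]; exact Submodule.smul_mem _ c a
  have h5 : ∀ y ∈ Submodule.span ℂ (Hom t), z * y ∈ Submodule.span ℂ (Hom t) := by
    have hz' : z ∈ (StarAlgebra.adjoin ℂ (Set.range fun i => (SS i, t i))).toSubalgebra := hz
    rw [StarAlgebra.adjoin_toSubalgebra] at hz'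
    clear hz
    induction hz' using Algebra.adjoin_induction with
    | mem x hx =>
      rcases hx with ⟨i, rfl⟩ | ⟨i, hi⟩
      · exact h4 _ (h2 i)
      · rw [← star_star x, ← hi]; exact h4 _ (h3 i)
    | algebraMap c =>
      intro y hy
      rw [← Algebra.smul_def]; exact Submodule.smul_mem _ c hy
    | add x x' _ _ a b => intro y hy; rw [add_mul]; exact add_mem (a y hy) (b y hy)
    | mul x x' _ _ a b => intro y hy; rw [mul_assoc]; exact a _ (b y hy)
  simpa using h5 1 (Submodule.subset_span h1)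

/-- words with length in the window `[N, 2N]` -/
abbrev KN (N : ℕ) : Type := Σ i : Fin (N + 1), Wd (N + i)

/-- the orthonormal family -/
noncomputable def eN (N : ℕ) (μ : KN N) : L2 Om := dl (pt _ μ.2)

theorem orthonormal_eN (N : ℕ) : Orthonormal ℂ (eN N) := by
  refine orthonormal_dl.comp (fun μ : KN N => pt _ μ.2) ?_
  rintro ⟨i, μ⟩ ⟨j, ν⟩ h
  have h1 := congrArg Prod.snd h
  simp only [pt_snd, Nat.cast_inj, add_right_inj] at h1
  obtain rfl : i = j := Fin.ext h1
  obtain rfl : μ = ν := pt_inj _ h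
  rfl

variable (t)

/-- normalised words -/
noncomputable def rN (N : ℕ) (μ : KN N) : B := (((√(N + 1))⁻¹ : ℝ) : ℂ) • wd t _ μ.2

variable {t}

theorem rN_mul (N : ℕ) (μ ν : KN N) :
    rN t N μ * star (rN t N ν) = (((N + 1 : ℝ)⁻¹ : ℝ) : ℂ) • (wd t _ μ.2 * star (wd t _ ν.2)) := by
  rw [rN, rN, star_smul, smul_mul_smul_comm]
  congr 1
  rw [Complex.star_def, Complex.conj_ofReal, ← Complex.ofReal_mul, ← mul_inv,
    Real.mul_self_sqrt (by positivity)]

theorem sum_rN (h : IsCuntz t) (N : ℕ) : ∑ μ, rN t N μ * star (rN t N μ) = 1 := by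
  simp only [rN_mul, ← smul_sum, Fintype.sum_sigma, h.sum_wd, sum_const, card_univ,
    Fintype.card_fin]
  rw [← Nat.cast_smul_eq_nsmul ℂ, smul_smul]
  have : (N : ℂ) + 1 ≠ 0 := by exact_mod_cast Nat.succ_ne_zero N
  push_cast
  rw [inv_mul_cancel₀ this, one_smul]

theorem Theta_eq (N : ℕ) (a : L2 Om →L[ℂ] L2 Om) :
    Theta (eN N) (rN t N) a = (((N + 1 : ℝ)⁻¹ : ℝ) : ℂ) •
      ∑ i ∈ range (N + 1), ∑ j ∈ range (N + 1), Psi t (N + i) (N + j) a := by
  rw [Theta, Fintype.sum_sigma, smul_sum, Finset.sum_range]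
  refine Finset.sum_congr rfl fun i _ => ?_
  simp only [Fintype.sum_sigma]
  rw [sum_comm, smul_sum, Finset.sum_range]
  refine Finset.sum_congr rfl fun j _ => ?_
  simp only [Psi, smul_sum, rN_mul, eN]
  refine Finset.sum_congr rfl fun μ _ => Finset.sum_congr rfl fun ν _ => smul_comm _ _ _

theorem tendsto_Theta_hom {z : (L2 Om →L[ℂ] L2 Om) × B} (hz : z ∈ Hom t) :
    Tendsto (fun N => Theta (eN N) (rN t N) z.1) atTop (𝓝 z.2) := by
  obtain ⟨p, q, hz⟩ := hz
  let c : ℕ → ℕ := fun N => ((range (N + 1)).filter fun i => p ≤ i + q ∧ i + q - p ≤ N).card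
  have h1 : ∀ N, p + q ≤ N →
      Theta (eN N) (rN t N) z.1 = ((((N + 1 : ℝ)⁻¹ * c N : ℝ)) : ℂ) • z.2 := by
    intro N hN
    have : ∀ i ∈ range (N + 1), ∑ j ∈ range (N + 1), Psi t (N + i) (N + j) z.1 =
        if p ≤ i + q ∧ i + q - p ≤ N then z.2 else 0 := by
      intro i _
      have e : ∀ j, Psi t (N + i) (N + j) z.1 = if i + q = j + p then z.2 else 0 := by
        intro j
        have := hz (N + i - p) (N + j - q)
        rw [Nat.sub_add_cancel (by omega), Nat.sub_add_cancel (by omega)] at this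
        rw [this]
        exact if_congr (by omega) rfl rfl
      simp only [e]
      split_ifs with hi
      · rw [Finset.sum_eq_single (i + q - p), if_pos (by omega)]
        · intro j _ hj; exact if_neg (by omega)
        · intro hj; exact absurd (mem_range.mpr (by omega)) hj
      · refine Finset.sum_eq_zero fun j hj => if_neg ?_
        have := mem_range.mp hj
        omega
    rw [Theta_eq, Finset.sum_congr rfl this, ← Finset.sum_filter, sum_const,
      ← Nat.cast_smul_eq_nsmul ℂ, smul_smul]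
    simp [c]
  have h2 : Tendsto (fun N : ℕ => ((N + 1 : ℝ)⁻¹ * c N : ℝ)) atTop (𝓝 1) := by
    have l1 : Tendsto (fun N : ℕ => 1 - (p + q : ℝ) * (1 / ((N : ℝ) + 1))) atTop (𝓝 1) := by
      simpa using (tendsto_one_div_add_atTop_nhds_zero_nat.const_mul (p + q : ℝ)).const_sub 1
    refine tendsto_of_tendsto_of_tendsto_of_le_of_le l1 tendsto_const_nhds (fun N => ?_)
      (fun N => ?_)
    · have hc : N + 1 ≤ c N + (p + q) := by
        have : (Finset.Ico p (N + 1 - q)).card ≤ c N := by
          refine Finset.card_le_card fun i hi => ?_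
          rw [Finset.mem_Ico] at hi
          simp only [mem_filter, mem_range]
          omega
        rw [Nat.card_Ico] at this
        omega
      have hc' : (N : ℝ) + 1 ≤ c N + (p + q) := by exact_mod_cast hc
      have hN : (0 : ℝ) < N + 1 := by positivity
      show 1 - (p + q : ℝ) * (1 / ((N : ℝ) + 1)) ≤ (N + 1 : ℝ)⁻¹ * c N
      rw [inv_mul_eq_div, mul_one_div, one_sub_div hN.ne', div_le_div_iff_of_pos_right hN]
      linarith
    · have hc : c N ≤ N + 1 := (Finset.card_filter_le _ _).trans (by simp)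
      have hc' : (c N : ℝ) ≤ N + 1 := by exact_mod_cast hc
      have hN : (0 : ℝ) < N + 1 := by positivity
      show (N + 1 : ℝ)⁻¹ * c N ≤ 1
      rwa [inv_mul_le_iff₀ hN, mul_one]
  have h3 := ((Complex.continuous_ofReal.tendsto _).comp h2).smul_const z.2
  simp only [Complex.ofReal_one, one_smul] at h3
  refine h3.congr' ?_
  filter_upwards [eventually_ge_atTop (p + q)] with N hN
  exact (h1 N hN).symm

theorem tendsto_Theta (h : IsCuntz t) {z : (L2 Om →L[ℂ] L2 Om) × B}
    (hz : z ∈ StarAlgebra.adjoin ℂ (Set.range fun i => (SS i, t i))) :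
    Tendsto (fun N => Theta (eN N) (rN t N) z.1) atTop (𝓝 z.2) := by
  have := adjoin_le_span h hz
  clear hz
  induction this using Submodule.span_induction with
  | mem y hy => exact tendsto_Theta_hom hy
  | zero => simp [Theta]
  | add y y' _ _ a b => simpa [Theta_add] using a.add b
  | smul c y _ a => simpa [Theta_smul] using a.const_smul c

theorem cuntz_universal (h : IsCuntz t) : ∃ φ : Gen SS →⋆ₐ[ℂ] B, ∀ i, φ (gen SS i) = t i :=
  exists_extension SS t fun _ hz =>
    le_of_tendsto' (tendsto_Theta h hz).norm fun N =>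
      norm_Theta_le _ (orthonormal_eN N) _ (sum_rN h N) _

end Psi

theorem isCuntzTwo :
    Crest.AnalysisR.CStarEmbedding.IsCuntzTwo (Gen SS) (gen SS false) (gen SS true) := by
  refine ⟨Subtype.ext (isCuntz_SS.iso _), Subtype.ext (isCuntz_SS.iso _), Subtype.ext ?_, ?_, ?_⟩
  · have := isCuntz_SS.sum
    rw [Fintype.sum_bool, add_comm] at this
    exact this
  · rw [← Bool.range_eq]; exact dense_gen SS
  · intro B _ t₁ t₂ h1 h2 h3
    obtain ⟨φ, hφ⟩ := cuntz_universal (t := fun i => cond i t₂ t₁)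
      ⟨fun i => by cases i <;> assumption, by rw [Fintype.sum_bool, add_comm]; exact h3⟩
    exact ⟨φ, hφ false, hφ true⟩

theorem tendsto_Theta_Gen {a : L2 Om →L[ℂ] L2 Om} (ha : a ∈ Gen SS) :
    Tendsto (fun N => Theta (eN N) (rN SS N) a) atTop (𝓝 a) := by
  rw [Metric.tendsto_nhds]
  intro ε hε
  obtain ⟨b, hb, hab⟩ := Metric.mem_closure_iff.mp ha (ε / 3) (by positivity)
  have hb' : (b, b) ∈ StarAlgebra.adjoin ℂ (Set.range fun i => (SS i, SS i)) := by
    have : StarAlgebra.adjoin ℂ (Set.range SS) ≤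
        (StarAlgebra.adjoin ℂ (Set.range fun i => (SS i, SS i))).comap
          ((StarAlgHom.id ℂ _).prod (StarAlgHom.id ℂ _)) :=
      StarAlgebra.adjoin_le (by
        rintro _ ⟨i, rfl⟩; exact StarAlgebra.subset_adjoin ℂ _ ⟨i, rfl⟩)
    exact this hb
  filter_upwards [Metric.tendsto_nhds.mp (tendsto_Theta isCuntz_SS hb') (ε / 3) (by positivity)]
    with N hN
  have h1 := norm_Theta_le _ (orthonormal_eN N) _ (sum_rN isCuntz_SS N) (a - b)
  rw [Theta_sub, ← dist_eq_norm, ← dist_eq_norm] at h1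
  have h2 := dist_triangle4 (Theta (eN N) (rN SS N) a) (Theta (eN N) (rN SS N) b) b a
  rw [dist_comm b a] at h2
  linarith

end Crest.Agent.R73
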