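import Mathlib

/-!
Spectral gap (property (T)) for groups generated by four one-parameter subgroups over `ZMod p`
that pairwise satisfy a Heisenberg relation.  Everything is done for isometric representations
on (possibly only seminormed, not complete) inner product spaces.
-/

set_option autoImplicit false

namespace Crest.Agent.R73

open scoped RealInnerProductSpace
open Finset

section TwoProj

variable {V : Type*} [SeminormedAddCommGroup V] [InnerProductSpace ℝ V]

/-- symmetric idempotent -/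
structure IsProj (P : Module.End ℝ V) : Prop where
  symm : ∀ v w, ⟪P v, w⟫ = ⟪v, P w⟫
  idem : ∀ v, P (P v) = P v

theorem IsProj.inner_self {P : Module.End ℝ V} (h : IsProj P) (v : V) : ⟪P v, v⟫ = ‖P v‖ ^ 2 := by
  rw [← real_inner_self_eq_norm_sq, h.symm (v) (P v), h.idem, h.symm]

theorem IsProj.compl {P : Module.End ℝ V} (h : IsProj P) : IsProj (1 - P) where
  symm v w := by simp [inner_sub_left, inner_sub_right, h.symm]
  idem v := by simp [h.idem]

theorem IsProj.norm_sub_sq {P : Module.End ℝ V} (h : IsProj P) (v : V) :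
    ‖v - P v‖ ^ 2 = ‖v‖ ^ 2 - ‖P v‖ ^ 2 := by
  rw [norm_sub_sq_real, real_inner_comm, h.inner_self]; ring

theorem IsProj.norm_le {P : Module.End ℝ V} (h : IsProj P) (v : V) : ‖P v‖ ≤ ‖v‖ := by
  have h1 := h.norm_sub_sq v
  have h2 : 0 ≤ ‖v - P v‖ ^ 2 := by positivity
  exact (pow_le_pow_iff_left₀ (norm_nonneg _) (norm_nonneg _) two_ne_zero).mp (by linarith)

/-- Small angle case. -/
theorem angle_bound {P R : Module.End ℝ V} (hP : IsProj P) (hR : IsProj R) (v : V)
    (h : ‖R (P v)‖ ≤ (1 / 20) * ‖P v‖) :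
    -(1 / 12) * (‖v - P v‖ ^ 2 + ‖v - R v‖ ^ 2) ≤ ⟪v - P v, v - R v⟫ := by
  have h1 : |⟪P v, R v⟫| ≤ (1 / 20) * (‖P v‖ * ‖R v‖) := by
    have : ⟪P v, R v⟫ = ⟪R (P v), R v⟫ := by rw [hR.symm, hR.idem]
    rw [this]
    calc _ ≤ ‖R (P v)‖ * ‖R v‖ := abs_real_inner_le_norm _ _
      _ ≤ ((1 / 20) * ‖P v‖) * ‖R v‖ := by gcongr
      _ = _ := by ring
  have ha := hP.inner_self v
  have hb := hR.inner_self v
  have h2 : ‖P v‖ * ‖R v‖ ≤ (‖P v‖ ^ 2 + ‖R v‖ ^ 2) / 2 := by nlinarith [sq_nonneg (‖P v‖ - ‖R v‖)]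
  have h3 : ‖P v + R v‖ ^ 2 ≤ (21 / 20) * (‖P v‖ ^ 2 + ‖R v‖ ^ 2) := by
    rw [norm_add_sq_real]; have := (abs_le.mp h1).2; nlinarith
  have h4 : ‖P v‖ ^ 2 + ‖R v‖ ^ 2 ≤ ‖P v + R v‖ * ‖v‖ := by
    rw [← ha, ← hb, ← inner_add_left]; exact real_inner_le_norm _ _
  have h5 : ‖P v‖ ^ 2 + ‖R v‖ ^ 2 ≤ (21 / 20) * ‖v‖ ^ 2 := by
    set s := ‖P v‖ ^ 2 + ‖R v‖ ^ 2 with hs
    have hs0 : 0 ≤ s := by positivity
    have : s * s ≤ (21 / 20) * s * ‖v‖ ^ 2 := by
      calc s * s ≤ (‖P v + R v‖ * ‖v‖) * (‖P v + R v‖ * ‖v‖) := by gcongr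
        _ = ‖P v + R v‖ ^ 2 * ‖v‖ ^ 2 := by ring
        _ ≤ _ := by gcongr
    rcases hs0.eq_or_lt with h0 | h0
    · rw [← h0]; positivity
    · nlinarith
  rw [hP.norm_sub_sq, hR.norm_sub_sq, inner_sub_left, inner_sub_right, inner_sub_right,
    real_inner_self_eq_norm_sq, ha, real_inner_comm, hb]
  have := (abs_le.mp h1).1
  nlinarith

/-- Commuting case. -/
theorem comm_bound {P R : Module.End ℝ V} (hP : IsProj P) (hR : IsProj R) (v : V)
    (h1 : P (R v) = R (P v)) :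
    0 ≤ ⟪v - P v, v - R v⟫ := by
  have hQ := hP.compl
  have hQ' := hR.compl
  have e1 : v - P v = (1 - P) v := by simp
  have e2 : v - R v = (1 - R) v := by simp
  have e3 : (1 - P) ((1 - R) v) = (1 - R) ((1 - P) v) := by simp [h1]; abel
  rw [e1, e2]
  have : ⟪(1 - P) v, (1 - R) v⟫ = ⟪(1 - P) ((1 - R) v), (1 - P) ((1 - R) v)⟫ := by
    calc _ = ⟪(1 - P) v, (1 - P) ((1 - R) v)⟫ := by rw [← hQ.symm ((1 - P) v), hQ.idem]
      _ = ⟪(1 - P) v, (1 - R) ((1 - P) ((1 - R) v))⟫ := by rw [e3, hQ'.idem]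
      _ = _ := by rw [← hQ'.symm, ← e3]
  rw [this]; exact real_inner_self_nonneg

theorem two_proj_bound {P R E : Module.End ℝ V} (hP : IsProj P) (hR : IsProj R) (hE : IsProj E)
    (hEP : ∀ v, E (P v) = P (E v)) (hER : ∀ v, E (R v) = R (E v))
    (hc : ∀ v, P (R (E v)) = R (P (E v)))
    (ha : ∀ v, E v = 0 → ‖R (P v)‖ ≤ (1 / 20) * ‖P v‖) (v : V) :
    -(1 / 12) * (‖v - P v‖ ^ 2 + ‖v - R v‖ ^ 2) ≤ ⟪v - P v, v - R v⟫ := by
  set a := E v with ha'
  set b := v - E v with hb'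
  have hEb : E b = 0 := by simp [hb', hE.idem]
  have hEa : E a = a := hE.idem v
  have hv : v = a + b := by simp [ha', hb']
  have orth : ∀ x y : V, E x = x → E y = 0 → ⟪x, y⟫ = 0 := by
    intro x y hx hy; rw [← hx, hE.symm, hy, inner_zero_right]
  have k1 : E (a - P a) = a - P a := by rw [map_sub, hEP, hEa]
  have k2 : E (a - R a) = a - R a := by rw [map_sub, hER, hEa]
  have k3 : E (b - P b) = 0 := by rw [map_sub, hEP, hEb]; simp
  have k4 : E (b - R b) = 0 := by rw [map_sub, hER, hEb]; simp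
  have e1 : v - P v = (a - P a) + (b - P b) := by
    conv_lhs => rw [hv]
    rw [map_add]; abel
  have e2 : v - R v = (a - R a) + (b - R b) := by
    conv_lhs => rw [hv]
    rw [map_add]; abel
  have b1 := comm_bound hP hR a (hc v)
  have b2 := angle_bound hP hR b (ha b hEb)
  rw [e1, e2, norm_add_sq_real, norm_add_sq_real, inner_add_left, inner_add_right, inner_add_right,
    orth _ _ k1 k3, orth _ _ k2 k4, orth _ _ k1 k4, real_inner_comm (a - R a) (b - P b),
    orth _ _ k2 k3]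
  nlinarith [sq_nonneg ‖a - P a‖, sq_nonneg ‖a - R a‖]

/-- If `T` is symmetric, positive, bounded with `T² ≥ T/2`, and some vector has
`⟪Tξ, ξ⟫ < ‖ξ‖²/2`, then there are unit vectors with `⟪Tη, η⟫` arbitrarily small. -/
theorem inf_zero {T : Module.End ℝ V} (hs : ∀ v w, ⟪T v, w⟫ = ⟪v, T w⟫) (hp : ∀ v, 0 ≤ ⟪T v, v⟫)
    (hb : ∀ v, ‖T v‖ ≤ 4 * ‖v‖) (hg : ∀ v, (1 / 2) * ⟪T v, v⟫ ≤ ‖T v‖ ^ 2)
    (ξ : V) (hξ : ⟪T ξ, ξ⟫ < (1 / 2) * ‖ξ‖ ^ 2) (δ : ℝ) (hδ : 0 < δ) :
    ∃ η : V, ‖η‖ = 1 ∧ ⟪T η, η⟫ ≤ δ := by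
  have hnorm : ∀ v : V, 0 < ‖v‖ → ‖(‖v‖⁻¹ : ℝ) • v‖ = 1 ∧
      ⟪T ((‖v‖⁻¹ : ℝ) • v), (‖v‖⁻¹ : ℝ) • v⟫ * ‖v‖ ^ 2 = ⟪T v, v⟫ := by
    intro v hv
    refine ⟨by rw [norm_smul, norm_inv, norm_norm, inv_mul_cancel₀ hv.ne'], ?_⟩
    rw [map_smul, inner_smul_left, inner_smul_right]; simp only [conj_trivial]; field_simp
  have hξ0 : 0 < ‖ξ‖ := by
    rcases (norm_nonneg ξ).eq_or_lt with h | h
    · have := hp ξ; rw [← h] at hξ; linarith
    · exact h
  set A : Set ℝ := {t | ∃ η : V, ‖η‖ = 1 ∧ ⟪T η, η⟫ = t} with hA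
  have hAne : A.Nonempty := ⟨_, _, (hnorm ξ hξ0).1, rfl⟩
  have hAb : BddBelow A := ⟨0, by rintro t ⟨η, -, rfl⟩; exact hp η⟩
  set m := sInf A with hm
  have hmle : ∀ v : V, m * ‖v‖ ^ 2 ≤ ⟪T v, v⟫ := by
    intro v
    rcases (norm_nonneg v).eq_or_lt with h | h
    · rw [← h]; simpa using hp v
    · rw [← (hnorm v h).2]
      have : m ≤ _ := csInf_le hAb ⟨_, (hnorm v h).1, rfl⟩
      gcongr
  have hm2 : m < 1 / 2 := by
    have := hmle ξ
    have h2 : 0 < ‖ξ‖ ^ 2 := by positivity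
    nlinarith
  have hm0 : m ≤ 0 := by
    by_contra hm0
    push Not at hm0
    set θ := (1 / 2 - m) * m / 65 with hθ
    have hθ0 : 0 < θ := by have : 0 < 1 / 2 - m := by linarith
                           positivity
    obtain ⟨t, ⟨η, hη1, rfl⟩, ht⟩ := exists_lt_of_csInf_lt hAne
      (show sInf A < m + θ ^ 2 by have : 0 < θ ^ 2 := by positivity
                                  linarith)
    have h1 := hmle (η - θ • T η)
    have h2 := hmle η
    have h3 := hg η
    have h4 : ⟪T (T η), T η⟫ ≤ 64 := by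
      calc _ ≤ ‖T (T η)‖ * ‖T η‖ := real_inner_le_norm _ _
        _ ≤ (4 * (4 * ‖η‖)) * (4 * ‖η‖) := by
          gcongr
          · exact (hb _).trans (by gcongr; exact hb _)
          · exact hb _
        _ = 64 := by rw [hη1]; norm_num
    rw [norm_sub_sq_real, map_sub, map_smul, inner_sub_left, inner_sub_right, inner_sub_right,
      inner_smul_left, inner_smul_right, inner_smul_right, inner_smul_left, inner_smul_right,
      norm_smul, hs (T η) η, real_inner_self_eq_norm_sq, real_inner_comm (T η) η, hη1,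
      Real.norm_eq_abs, abs_of_pos hθ0] at h1
    simp only [conj_trivial] at h1
    rw [hη1] at h2
    set D := ⟪T η, η⟫
    set N := ‖T η‖ ^ 2 with hN
    have hN0 : 0 ≤ N := by positivity
    have e : (θ * ‖T η‖) ^ 2 = θ ^ 2 * N := by rw [hN]; ring
    rw [e] at h1
    have h5 : 2 * θ * (N - m * D) ≤ θ ^ 2 + θ ^ 2 * 64 := by
      have : θ * (θ * ⟪T (T η), T η⟫) ≤ θ ^ 2 * 64 := by nlinarith [sq_nonneg θ]
      have : 0 ≤ m * (θ ^ 2 * N) := by positivity
      nlinarith
    have h6 : (1 / 2 - m) * m ≤ N - m * D := by nlinarith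
    have h7 : (1 / 2 - m) * m = 65 * θ := by rw [hθ]; ring
    nlinarith
  obtain ⟨t, ⟨η, hη1, rfl⟩, ht⟩ := exists_lt_of_csInf_lt hAne (show sInf A < δ by linarith)
  exact ⟨η, hη1, ht.le⟩

end TwoProj

section Heis

section Add

variable {G : Type*} [Group G] {F : Type*} [AddCommGroup F] [Fintype F]

/-- one-parameter subgroup -/
def OneParam (x : F → G) : Prop := ∀ a b, x (a + b) = x a * x b

omit [Fintype F] in
theorem OneParam.zero {x : F → G} (h : OneParam x) : x 0 = 1 := by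
  have := h 0 0; simpa using this

omit [Fintype F] in
theorem OneParam.neg {x : F → G} (h : OneParam x) (a : F) : x (-a) = (x a)⁻¹ := by
  have := h a (-a); rw [add_neg_cancel, h.zero] at this
  exact (inv_eq_of_mul_eq_one_right this.symm).symm

variable {V : Type*} [SeminormedAddCommGroup V] [InnerProductSpace ℝ V]
  (π : G →* Module.End ℝ V)

/-- average over a one-parameter subgroup -/
noncomputable def avg (x : F → G) : Module.End ℝ V := (Fintype.card F : ℝ)⁻¹ • ∑ a, π (x a)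

omit [AddCommGroup F] in
theorem avg_apply (x : F → G) (v : V) :
    avg π x v = (Fintype.card F : ℝ)⁻¹ • ∑ a, π (x a) v := by
  simp [avg, LinearMap.sum_apply]

theorem card_pos' : (0 : ℝ) < Fintype.card F := by exact_mod_cast Fintype.card_pos

theorem mul_avg {x : F → G} (hx : OneParam x) (b : F) (v : V) : π (x b) (avg π x v) = avg π x v := by
  rw [avg_apply, map_smul, map_sum]
  congr 1
  refine Fintype.sum_equiv (Equiv.addLeft b) _ _ fun a => ?_
  simp [hx b a]

theorem avg_mul {x : F → G} (hx : OneParam x) (b : F) (v : V) : avg π x (π (x b) v) = avg π x v := by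
  rw [avg_apply, avg_apply]
  congr 1
  refine Fintype.sum_equiv (Equiv.addRight b) _ _ fun a => ?_
  simp [hx a b]

theorem avg_of_fixed {x : F → G} (v : V) (h : ∀ a, π (x a) v = v) : avg π x v = v := by
  rw [avg_apply]; simp only [h, sum_const, card_univ]
  rw [← Nat.cast_smul_eq_nsmul ℝ, smul_smul, inv_mul_cancel₀ (card_pos' (F := F)).ne', one_smul]

omit [AddCommGroup F] in
theorem avg_comm {x : F → G} (g : G) (h : ∀ a, g * x a = x a * g) (v : V) :
    avg π x (π g v) = π g (avg π x v) := by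
  rw [avg_apply, avg_apply, map_smul, map_sum]
  congr 1
  refine Finset.sum_congr rfl fun a _ => ?_
  rw [← Module.End.mul_apply, ← Module.End.mul_apply, ← map_mul, ← map_mul, h]

variable {π}

theorem inner_pi_left (hπ : ∀ g v, ‖π g v‖ = ‖v‖) (g : G) (v w : V) :
    ⟪π g v, w⟫ = ⟪v, π g⁻¹ w⟫ := by
  have h := (LinearMap.norm_map_iff_inner_map_map (𝕜 := ℝ) (π g)).mp (hπ g) v (π g⁻¹ w)
  rw [← h, ← Module.End.mul_apply, ← map_mul]; simp

theorem isProj_avg (hπ : ∀ g v, ‖π g v‖ = ‖v‖) {x : F → G} (hx : OneParam x) : IsProj (avg π x) where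
  symm v w := by
    rw [avg_apply, avg_apply, inner_smul_left, inner_smul_right, sum_inner, inner_sum]
    simp only [conj_trivial]
    congr 1
    refine Fintype.sum_equiv (Equiv.neg F) _ _ fun a => ?_
    simp [inner_pi_left hπ, hx.neg]
  idem v := avg_of_fixed π _ fun a => mul_avg π hx a v

theorem sum_disp (hπ : ∀ g v, ‖π g v‖ = ‖v‖) {x : F → G} (hx : OneParam x) (v : V) :
    ∑ a, ‖π (x a) v - v‖ ^ 2 = 2 * Fintype.card F * ‖v - avg π x v‖ ^ 2 := by
  rw [(isProj_avg hπ hx).norm_sub_sq, ← (isProj_avg hπ hx).inner_self, avg_apply, inner_smul_left,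
    sum_inner]
  simp only [norm_sub_sq_real, hπ, conj_trivial, sum_add_distrib, sum_sub_distrib, sum_const,
    card_univ, nsmul_eq_mul, ← mul_sum]
  have := (card_pos' (F := F)).ne'
  field_simp; ring

end Add

variable {G : Type*} [Group G] {F : Type*} [Field F] [Fintype F]

/-- Heisenberg relation between two one-parameter subgroups -/
def Heis (x y : F → G) : Prop :=
  ∃ z : F → G, OneParam z ∧ (∀ a b, x a * y b = y b * x a * z (a * b)) ∧
    (∀ a c, x a * z c = z c * x a) ∧ (∀ a c, y a * z c = z c * y a)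

variable {V : Type*} [SeminormedAddCommGroup V] [InnerProductSpace ℝ V]
  {π : G →* Module.End ℝ V}

theorem heis_bound (hπ : ∀ g v, ‖π g v‖ = ‖v‖) (hF : 400 ≤ Fintype.card F) {x y : F → G}
    (hx : OneParam x) (hy : OneParam y) (h : Heis x y) (v : V) :
    -(1 / 12) * (‖v - avg π x v‖ ^ 2 + ‖v - avg π y v‖ ^ 2) ≤ ⟪v - avg π x v, v - avg π y v⟫ := by
  classical
  obtain ⟨z, hz, h1, h2, h3⟩ := h
  have hP := isProj_avg hπ hx
  have hR := isProj_avg hπ hy
  have hE := isProj_avg hπ hz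
  have hEx : ∀ v, avg π z (avg π x v) = avg π x (avg π z v) := by
    intro v
    rw [avg_apply π x, avg_apply π x, map_smul, map_sum]
    congr 1
    exact Finset.sum_congr rfl fun a _ => avg_comm π _ (h2 a) v
  have hEy : ∀ v, avg π z (avg π y v) = avg π y (avg π z v) := by
    intro v
    rw [avg_apply π y, avg_apply π y, map_smul, map_sum]
    congr 1
    exact Finset.sum_congr rfl fun a _ => avg_comm π _ (h3 a) v
  refine two_proj_bound hP hR hE hEx hEy ?_ ?_ v
  · intro v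
    have : ∀ a b, π (x a) (π (y b) (avg π z v)) = π (y b) (π (x a) (avg π z v)) := by
      intro a b
      rw [← Module.End.mul_apply, ← map_mul, h1, map_mul, map_mul, Module.End.mul_apply,
        Module.End.mul_apply, mul_avg π hz]
    simp only [avg_apply π x, avg_apply π y, map_smul, map_sum, this]
    rw [← smul_sum, ← smul_sum, sum_comm]
  · intro v hv
    set w := avg π x v with hw
    have hEw : avg π z w = 0 := by rw [hw, hEx, hv, map_zero]
    have key : ∀ b, b ≠ 0 → ⟪π (y b) w, w⟫ = 0 := by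
      intro b hb
      have e1 : ∀ a, ⟪π (y b) w, w⟫ = ⟪π (y b) (π (z (a * b)) w), w⟫ := by
        intro a
        have : w = π (x a)⁻¹ w := by rw [← hx.neg, hw, mul_avg π hx]
        conv_lhs => enter [3]; rw [this]
        rw [← inner_pi_left hπ, ← Module.End.mul_apply, ← map_mul, h1, mul_assoc, h2, map_mul,
          map_mul, Module.End.mul_apply, Module.End.mul_apply, hw, mul_avg π hx]
      have e2 : ∑ a, π (z (a * b)) w = ∑ a, π (z a) w :=
        Fintype.sum_equiv (Equiv.mulRight₀ b hb) _ _ fun a => by simp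
      have e3 : ∑ a, π (z a) w = 0 := by
        have := hEw; rw [avg_apply, smul_eq_zero] at this
        exact this.resolve_left (inv_ne_zero (card_pos' (F := F)).ne')
      have e4 : ∑ _a : F, ⟪π (y b) w, w⟫ = 0 := by
        rw [Finset.sum_congr rfl fun a _ => e1 a, ← sum_inner, ← map_sum, e2, e3]; simp
      simpa [Fintype.card_ne_zero] using e4
    have e5 : ‖avg π y w‖ ^ 2 = (Fintype.card F : ℝ)⁻¹ * ‖w‖ ^ 2 := by
      rw [← hR.inner_self, avg_apply, inner_smul_left, sum_inner,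
        Finset.sum_eq_single 0 (fun b _ hb => key b hb) (by simp), hy.zero]
      simp
    have e6 : (Fintype.card F : ℝ)⁻¹ ≤ 1 / 400 := by
      rw [one_div]; exact inv_anti₀ (by norm_num) (by exact_mod_cast hF)
    refine (pow_le_pow_iff_left₀ (norm_nonneg _) (by positivity) two_ne_zero).mp ?_
    rw [e5, mul_pow]
    have : 0 ≤ ‖w‖ ^ 2 := by positivity
    nlinarith

/-- displacement of a vector under the generators -/
noncomputable def disp {ι E : Type*} [Fintype ι] [SeminormedAddCommGroup E] (T : ι → E → E) (v : E) :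
    ℝ := ∑ s, ‖T s v - v‖ ^ 2

theorem gap_real (hπ : ∀ g v, ‖π g v‖ = ‖v‖) (hF : 400 ≤ Fintype.card F) {x : Fin 4 → F → G}
    (hx : ∀ i, OneParam (x i)) (hH : ∀ i j, i < j → Heis (x i) (x j)) (ξ : V)
    (hξ : disp (fun s : Fin 4 × F => π (x s.1 s.2)) ξ < Fintype.card F * ‖ξ‖ ^ 2)
    (δ : ℝ) (hδ : 0 < δ) :
    ∃ η : V, ‖η‖ = 1 ∧ disp (fun s : Fin 4 × F => π (x s.1 s.2)) η ≤ δ := by
  set T : Module.End ℝ V := ∑ i, (1 - avg π (x i)) with hT
  have hQ := fun i => (isProj_avg hπ (hx i)).compl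
  have hTv : ∀ v, T v = ∑ i, (v - avg π (x i) v) := by
    intro v; simp [hT, LinearMap.sum_apply]
  have hTi : ∀ v, ⟪T v, v⟫ = ∑ i, ‖v - avg π (x i) v‖ ^ 2 := by
    intro v; rw [hTv, sum_inner]
    exact Finset.sum_congr rfl fun i _ => by simpa using (hQ i).inner_self v
  have hD : ∀ v, disp (fun s : Fin 4 × F => π (x s.1 s.2)) v = 2 * Fintype.card F * ⟪T v, v⟫ := by
    intro v
    rw [disp, Fintype.sum_prod_type, hTi, mul_sum]
    exact Finset.sum_congr rfl fun i _ => sum_disp hπ (hx i) v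
  have hc := card_pos' (F := F)
  suffices h : ∃ η : V, ‖η‖ = 1 ∧ ⟪T η, η⟫ ≤ δ / (2 * Fintype.card F) by
    obtain ⟨η, h1, h2⟩ := h
    refine ⟨η, h1, ?_⟩
    rw [hD]; rwa [le_div_iff₀' (by positivity)] at h2
  refine inf_zero (T := T) ?_ ?_ ?_ ?_ ξ ?_ _ (by positivity)
  · intro v w
    rw [hTv, hTv, sum_inner, inner_sum]
    exact Finset.sum_congr rfl fun i _ => by simpa using (hQ i).symm v w
  · intro v; rw [hTi]; positivity
  · intro v
    rw [hTv]
    refine (norm_sum_le _ _).trans ?_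
    calc _ ≤ ∑ _i : Fin 4, ‖v‖ := Finset.sum_le_sum fun i _ => by simpa using (hQ i).norm_le v
      _ = _ := by simp
  · intro v
    have b := fun i j hij => heis_bound hπ hF (hx i) (hx j) (hH i j hij) v
    have b01 := b 0 1 (by decide)
    have b02 := b 0 2 (by decide)
    have b03 := b 0 3 (by decide)
    have b12 := b 1 2 (by decide)
    have b13 := b 1 3 (by decide)
    have b23 := b 2 3 (by decide)
    rw [hTi, hTv, Fin.sum_univ_four, Fin.sum_univ_four, norm_add_sq_real, norm_add_sq_real,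
      norm_add_sq_real, inner_add_left, inner_add_left, inner_add_left]
    linarith
  · rw [hD] at hξ; nlinarith

end Heis

/-- The spectral gap for complex representations. -/
theorem gap_complex {G : Type*} [Group G] {F : Type*} [Field F] [Fintype F]
    {V : Type*} [SeminormedAddCommGroup V] [InnerProductSpace ℂ V] {π : G →* Module.End ℂ V}
    (hπ : ∀ g v, ‖π g v‖ = ‖v‖) (hF : 400 ≤ Fintype.card F) {x : Fin 4 → F → G}
    (hx : ∀ i, OneParam (x i)) (hH : ∀ i j, i < j → Heis (x i) (x j)) (ξ : V)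
    (hξ : disp (fun s : Fin 4 × F => π (x s.1 s.2)) ξ < Fintype.card F * ‖ξ‖ ^ 2)
    (δ : ℝ) (hδ : 0 < δ) :
    ∃ η : V, ‖η‖ = 1 ∧ disp (fun s : Fin 4 × F => π (x s.1 s.2)) η ≤ δ := by
  let _ : InnerProductSpace ℝ V := InnerProductSpace.complexToReal
  let π' : G →* Module.End ℝ V :=
    { toFun := fun g => (π g).restrictScalars ℝ
      map_one' := by ext; simp
      map_mul' := by intro a b; ext; simp }
  exact gap_real (π := π') hπ hF hx hH ξ hξ δ hδ

end Crest.Agent.R73
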