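import Mathlib
import Crest.Agent.R73.Gap

/-!
Asymptotic representations along an ultrafilter, their limit representation, and the
"reset" lemma (the spectral gap survives asymptotically).
-/

set_option autoImplicit false

namespace Crest.Agent.R73

open Filter Topology Finset
open scoped InnerProductSpace

theorem exists_ulim {ι : Type*} (ω : Ultrafilter ι) (f : ι → ℂ) (C : ℝ) (h : ∀ k, ‖f k‖ ≤ C) :
    ∃ z, Tendsto f ω (𝓝 z) := by
  obtain ⟨z, -, hz⟩ := (isCompact_closedBall (0 : ℂ) C).ultrafilter_le_nhds (ω.map f)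
    (by rw [le_principal_iff, Ultrafilter.coe_map, Filter.mem_map]
        exact Filter.univ_mem' fun k => by simpa using h k)
  exact ⟨z, hz⟩

/-- asymptotic unitary representation along an ultrafilter -/
structure AsymRep (ω : Ultrafilter ℕ) {G : Type} [Group G] {E : ℕ → Type}
    [∀ k, NormedAddCommGroup (E k)] [∀ k, InnerProductSpace ℂ (E k)]
    (w : ∀ k, G → E k →L[ℂ] E k) : Prop where
  bdd : ∀ g, ∃ C, ∀ k, ‖w k g‖ ≤ C
  mul : ∀ g h, Tendsto (fun k => ‖w k (g * h) - w k g * w k h‖) ω (𝓝 0)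
  one : Tendsto (fun k => ‖w k 1 - 1‖) ω (𝓝 0)
  iso : ∀ g, ∃ ε : ℕ → ℝ, Tendsto ε ω (𝓝 0) ∧
    ∀ k v, |‖w k g v‖ ^ 2 - ‖v‖ ^ 2| ≤ ε k * ‖v‖ ^ 2

theorem exists_limit_rep {ω : Ultrafilter ℕ} {G : Type} [Group G] {E : ℕ → Type}
    [∀ k, NormedAddCommGroup (E k)] [∀ k, InnerProductSpace ℂ (E k)]
    {w : ∀ k, G → E k →L[ℂ] E k} (hw : AsymRep ω w) (ξ : ∀ k, E k) (hξ : ∀ k, ‖ξ k‖ ≤ 1) :
    ∃ (V : Type) (_ : SeminormedAddCommGroup V) (_ : InnerProductSpace ℂ V)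
      (π : G →* Module.End ℂ V) (Λ : ∀ k, V →ₗ[ℂ] E k) (v₀ : V),
      (∀ g v, ‖π g v‖ = ‖v‖) ∧ (∀ v, Tendsto (fun k => ‖Λ k v‖) ω (𝓝 ‖v‖)) ∧
      (∀ g v, Tendsto (fun k => ‖Λ k (π g v) - w k g (Λ k v)‖) ω (𝓝 0)) ∧
      Tendsto (fun k => ‖Λ k v₀ - ξ k‖) ω (𝓝 0) := by
  classical
  let Λ₀ : ∀ k, (G →₀ ℂ) →ₗ[ℂ] E k := fun k => Finsupp.linearCombination ℂ fun g => w k g (ξ k)
  let π₀ : G →* Module.End ℂ (G →₀ ℂ) :=
    { toFun := fun g => Finsupp.lmapDomain ℂ ℂ (g * ·)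
      map_one' := by ext; simp
      map_mul' := by intro a b; ext; simp [mul_assoc] }
  have hb : ∀ v : G →₀ ℂ, ∃ C, ∀ k, ‖Λ₀ k v‖ ≤ C := by
    intro v
    induction v using Finsupp.induction_linear with
    | zero => exact ⟨0, by simp⟩
    | add a b ha hb =>
      obtain ⟨C, hC⟩ := ha
      obtain ⟨D, hD⟩ := hb
      exact ⟨C + D, fun k => by rw [map_add]; exact (norm_add_le _ _).trans (add_le_add (hC k) (hD k))⟩
    | single g c =>
      obtain ⟨C, hC⟩ := hw.bdd g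
      refine ⟨‖c‖ * C, fun k => ?_⟩
      simp only [Λ₀, Finsupp.linearCombination_single, norm_smul]
      gcongr
      calc _ ≤ ‖w k g‖ * ‖ξ k‖ := (w k g).le_opNorm _
        _ ≤ C * 1 := by gcongr; exacts [(norm_nonneg _).trans (hC k), hC k, hξ k]
        _ = C := mul_one C
  have hlim : ∀ u v : G →₀ ℂ, ∃ z, Tendsto (fun k => ⟪Λ₀ k u, Λ₀ k v⟫_ℂ) ω (𝓝 z) := by
    intro u v
    obtain ⟨C, hC⟩ := hb u
    obtain ⟨D, hD⟩ := hb v
    refine exists_ulim ω _ (C * D) fun k => (norm_inner_le_norm _ _).trans ?_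
    gcongr
    exacts [(norm_nonneg _).trans (hC k), hC k, hD k]
  choose ip hip using hlim
  have hnn : ∀ u, Tendsto (fun k => ‖Λ₀ k u‖ ^ 2) ω (𝓝 (ip u u).re) := by
    intro u
    have := (Complex.continuous_re.tendsto _).comp (hip u u)
    refine this.congr fun k => ?_
    simp only [Function.comp]
    exact inner_self_eq_norm_sq (𝕜 := ℂ) _
  let core : PreInnerProductSpace.Core ℂ (G →₀ ℂ) :=
    { inner := fun u v => ip u v
      conj_inner_symm := by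
        intro u v
        refine tendsto_nhds_unique ((Complex.continuous_conj.tendsto _).comp (hip v u)) ?_
        refine (hip u v).congr fun k => ?_
        simp
      re_inner_nonneg := by
        intro u
        exact ge_of_tendsto' (hnn u) fun k => by positivity
      add_left := by
        intro u v z
        refine tendsto_nhds_unique (hip (u + v : G →₀ ℂ) z) ?_
        refine ((hip u z).add (hip v z)).congr fun k => ?_
        rw [map_add, inner_add_left]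
      smul_left := by
        intro u v c
        refine tendsto_nhds_unique (hip (c • u : G →₀ ℂ) v) ?_
        refine ((hip u v).const_mul _).congr fun k => ?_
        rw [map_smul, inner_smul_left] }
  let i1 : SeminormedAddCommGroup (G →₀ ℂ) :=
    InnerProductSpace.Core.toSeminormedAddCommGroup (𝕜 := ℂ) (c := core)
  let i2 : InnerProductSpace ℂ (G →₀ ℂ) := InnerProductSpace.ofCore core
  have hnorm : ∀ v : G →₀ ℂ, Tendsto (fun k => ‖Λ₀ k v‖) ω (𝓝 ‖v‖) := by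
    intro v
    have e : ‖v‖ = √(ip v v).re := rfl
    rw [e]
    refine ((Real.continuous_sqrt.tendsto _).comp (hnn v)).congr fun k => ?_
    simp
  have hcomm : ∀ g (v : G →₀ ℂ), Tendsto (fun k => ‖Λ₀ k (π₀ g v) - w k g (Λ₀ k v)‖) ω (𝓝 0) := by
    intro g v
    induction v using Finsupp.induction_linear with
    | zero => simp
    | add a b ha hb =>
      refine squeeze_zero (fun k => norm_nonneg _) (fun k => ?_) (by simpa using ha.add hb)
      simp only [map_add]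
      refine le_trans (le_of_eq ?_) (norm_add_le _ _)
      congr 1; abel
    | single h c =>
      refine squeeze_zero (fun k => norm_nonneg _) (fun k => ?_)
        (by simpa using (hw.mul g h).const_mul ‖c‖)
      have : Λ₀ k (π₀ g (Finsupp.single h c)) - w k g (Λ₀ k (Finsupp.single h c))
          = c • (w k (g * h) - w k g * w k h) (ξ k) := by
        simp [Λ₀, π₀, smul_sub]
      rw [this, norm_smul]
      gcongr
      calc _ ≤ ‖w k (g * h) - w k g * w k h‖ * ‖ξ k‖ := ContinuousLinearMap.le_opNorm _ _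
        _ ≤ ‖w k (g * h) - w k g * w k h‖ * 1 := by gcongr; exact hξ k
        _ = _ := mul_one _
  refine ⟨G →₀ ℂ, i1, i2, π₀, Λ₀, Finsupp.single 1 1, ?_, hnorm, hcomm, ?_⟩
  · intro g v
    obtain ⟨ε, hε, hε'⟩ := hw.iso g
    have h1 : Tendsto (fun k => ‖w k g (Λ₀ k v)‖) ω (𝓝 ‖π₀ g v‖) := by
      have := (hnorm (π₀ g v))
      refine tendsto_of_tendsto_of_dist this ?_
      refine squeeze_zero (fun k => dist_nonneg) (fun k => ?_) (hcomm g v)
      exact dist_norm_norm_le _ _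
    have h2 : Tendsto (fun k => ‖w k g (Λ₀ k v)‖ ^ 2 - ‖Λ₀ k v‖ ^ 2) ω (𝓝 0) := by
      rw [tendsto_zero_iff_abs_tendsto_zero]
      refine squeeze_zero (fun k => abs_nonneg _) (fun k => hε' k _) ?_
      simpa using hε.mul ((hnorm v).pow 2)
    have h3 := tendsto_nhds_unique h2 ((h1.pow 2).sub ((hnorm v).pow 2))
    exact (pow_left_inj₀ (norm_nonneg _) (norm_nonneg _) two_ne_zero).mp (by linarith)
  · refine squeeze_zero (fun k => norm_nonneg _) (fun k => ?_) hw.one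
    have : Λ₀ k (Finsupp.single 1 1) - ξ k = (w k 1 - 1) (ξ k) := by simp [Λ₀]
    rw [this]
    calc _ ≤ ‖w k 1 - 1‖ * ‖ξ k‖ := ContinuousLinearMap.le_opNorm _ _
      _ ≤ ‖w k 1 - 1‖ * 1 := by gcongr; exact hξ k
      _ = _ := mul_one _

/-- In the limit representation, the displacement of lifted vectors converges. -/
theorem tendsto_disp_lift {ω : Ultrafilter ℕ} {G : Type} [Group G] {E : ℕ → Type}
    [∀ k, NormedAddCommGroup (E k)] [∀ k, InnerProductSpace ℂ (E k)]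
    {w : ∀ k, G → E k →L[ℂ] E k} {V : Type} [SeminormedAddCommGroup V] [InnerProductSpace ℂ V]
    {π : G →* Module.End ℂ V} {Λ : ∀ k, V →ₗ[ℂ] E k}
    (h1 : ∀ v, Tendsto (fun k => ‖Λ k v‖) ω (𝓝 ‖v‖))
    (h2 : ∀ g v, Tendsto (fun k => ‖Λ k (π g v) - w k g (Λ k v)‖) ω (𝓝 0)) (g : G) (u v : V) :
    Tendsto (fun k => ‖w k g (Λ k u) - Λ k v‖) ω (𝓝 ‖π g u - v‖) := by
  refine tendsto_of_tendsto_of_dist (h1 (π g u - v)) ?_
  refine squeeze_zero (fun k => dist_nonneg) (fun k => ?_) (h2 g u)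
  refine (dist_norm_norm_le _ _).trans (le_of_eq ?_)
  congr 1; rw [map_sub]; abel

theorem tendsto_norm_v0 {ω : Ultrafilter ℕ} {E : ℕ → Type}
    [∀ k, NormedAddCommGroup (E k)] [∀ k, InnerProductSpace ℂ (E k)]
    {V : Type} [SeminormedAddCommGroup V] [InnerProductSpace ℂ V] {Λ : ∀ k, V →ₗ[ℂ] E k}
    (h2 : ∀ v, Tendsto (fun k => ‖Λ k v‖) ω (𝓝 ‖v‖)) {ξ : ∀ k, E k} {v₀ : V}
    (h4 : Tendsto (fun k => ‖Λ k v₀ - ξ k‖) ω (𝓝 0)) (hξ : ∀ᶠ k in ω, ‖ξ k‖ = 1) :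
    ‖v₀‖ = 1 := by
  refine tendsto_nhds_unique (h2 v₀) ?_
  have : Tendsto (fun k => ‖ξ k‖) ω (𝓝 1) :=
    tendsto_const_nhds.congr' (hξ.mono fun k hk => hk.symm)
  refine tendsto_of_tendsto_of_dist this ?_
  refine squeeze_zero (fun k => dist_nonneg) (fun k => ?_) h4
  rw [dist_comm]; exact dist_norm_norm_le _ _

theorem tendsto_disp_v0 {ω : Ultrafilter ℕ} {G : Type} [Group G] {E : ℕ → Type}
    [∀ k, NormedAddCommGroup (E k)] [∀ k, InnerProductSpace ℂ (E k)]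
    {w : ∀ k, G → E k →L[ℂ] E k} (hw : AsymRep ω w)
    {V : Type} [SeminormedAddCommGroup V] [InnerProductSpace ℂ V]
    {π : G →* Module.End ℂ V} {Λ : ∀ k, V →ₗ[ℂ] E k}
    (h2 : ∀ v, Tendsto (fun k => ‖Λ k v‖) ω (𝓝 ‖v‖))
    (h3 : ∀ g v, Tendsto (fun k => ‖Λ k (π g v) - w k g (Λ k v)‖) ω (𝓝 0)) {ξ : ∀ k, E k} {v₀ : V}
    (h4 : Tendsto (fun k => ‖Λ k v₀ - ξ k‖) ω (𝓝 0)) {ι : Type} [Fintype ι] (x : ι → G) :
    Tendsto (fun k => disp (fun s => w k (x s)) (ξ k)) ω (𝓝 (disp (fun s => π (x s)) v₀)) := by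
  refine tendsto_finsetSum _ fun s _ => Tendsto.pow ?_ 2
  refine tendsto_of_tendsto_of_dist (tendsto_disp_lift h2 h3 _ v₀ v₀) ?_
  obtain ⟨C, hC⟩ := hw.bdd (x s)
  refine squeeze_zero (fun k => dist_nonneg) (fun k => ?_)
    (by simpa using (h4.const_mul C).add h4)
  refine (dist_norm_norm_le _ _).trans ?_
  have : w k (x s) (Λ k v₀) - Λ k v₀ - (w k (x s) (ξ k) - ξ k)
      = w k (x s) (Λ k v₀ - ξ k) - (Λ k v₀ - ξ k) := by rw [map_sub]; abel
  rw [this]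
  refine (norm_sub_le _ _).trans ?_
  gcongr
  exact (ContinuousLinearMap.le_opNorm _ _).trans (by gcongr; exact hC k)

/-- diagonal choice along a free ultrafilter -/
theorem diag_choice {ω : Ultrafilter ℕ} (hω : Tendsto (fun k : ℕ => 1 / ((k : ℝ) + 1)) ω (𝓝 0))
    {α : ℕ → Type} (z : ∀ k, α k) (p : ∀ k, α k → Prop) (c : ∀ k, α k → ℝ) (hc : ∀ k a, 0 ≤ c k a)
    (h : ∀ δ > 0, ∀ᶠ k in ω, ∃ a, p k a ∧ c k a ≤ δ) :
    ∃ a : ∀ k, α k, (∀ k, a k = z k ∨ p k (a k)) ∧ (∀ᶠ k in ω, p k (a k)) ∧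
      Tendsto (fun k => c k (a k)) ω (𝓝 0) := by
  have key : ∀ k, ∃ a : α k, (a = z k ∨ p k a) ∧
      ∀ b, p k b → p k a ∧ c k a ≤ c k b + 1 / ((k : ℝ) + 1) := by
    intro k
    by_cases hk : ∃ b, p k b
    · set A : Set ℝ := {t | ∃ b, p k b ∧ c k b = t}
      have hne : A.Nonempty := by obtain ⟨b, hb⟩ := hk; exact ⟨_, b, hb, rfl⟩
      have hbd : BddBelow A := ⟨0, by rintro t ⟨b, -, rfl⟩; exact hc k b⟩
      have hpos : (0 : ℝ) < 1 / ((k : ℝ) + 1) := by positivity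
      obtain ⟨t, ⟨a, ha, rfl⟩, ht⟩ := exists_lt_of_csInf_lt hne
        (show sInf A < sInf A + 1 / ((k : ℝ) + 1) by linarith)
      refine ⟨a, Or.inr ha, fun b hb => ⟨ha, ?_⟩⟩
      have : sInf A ≤ c k b := csInf_le hbd ⟨b, hb, rfl⟩
      linarith
    · exact ⟨z k, Or.inl rfl, fun b hb => absurd ⟨b, hb⟩ hk⟩
  choose a ha1 ha2 using key
  refine ⟨a, ha1, (h 1 one_pos).mono fun k ⟨b, hb, _⟩ => (ha2 k b hb).1, ?_⟩
  rw [Metric.tendsto_nhds]
  intro ε hε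
  filter_upwards [h (ε / 2) (by positivity), hω.eventually (gt_mem_nhds (half_pos hε))]
    with k ⟨b, hb, hb'⟩ hk
  rw [Real.dist_eq, sub_zero, abs_of_nonneg (hc _ _)]
  linarith [(ha2 k b hb).2]

theorem norm_normalize {E : Type*} [NormedAddCommGroup E] [NormedSpace ℂ E] {v : E} (hv : v ≠ 0) :
    ‖((‖v‖⁻¹ : ℝ) : ℂ) • v‖ = 1 := by
  rw [norm_smul, Complex.norm_real, norm_inv, norm_norm, inv_mul_cancel₀ (norm_ne_zero_iff.mpr hv)]

theorem disp_smul {ι E : Type*} [Fintype ι] [NormedAddCommGroup E] [NormedSpace ℂ E]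
    (T : ι → E →L[ℂ] E) (c : ℂ) (v : E) :
    disp (fun s => T s) (c • v) = ‖c‖ ^ 2 * disp (fun s => T s) v := by
  simp only [disp, map_smul, ← smul_sub, norm_smul, mul_pow, mul_sum]

/-- from vectors with norm tending to a positive limit and small displacement to unit vectors -/
theorem eventually_unit {ω : Ultrafilter ℕ} {ι : Type} [Fintype ι] {E : ℕ → Type}
    [∀ k, NormedAddCommGroup (E k)] [∀ k, InnerProductSpace ℂ (E k)]
    (T : ∀ k, ι → E k →L[ℂ] E k) (η : ∀ k, E k) {a d δ : ℝ} (ha : 0 < a) (hd : d < δ * a ^ 2)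
    (h1 : Tendsto (fun k => ‖η k‖) ω (𝓝 a))
    (h2 : Tendsto (fun k => disp (fun s => T k s) (η k)) ω (𝓝 d)) :
    ∀ᶠ k in ω, ∃ ζ : E k, ‖ζ‖ = 1 ∧ disp (fun s => T k s) ζ ≤ δ := by
  have h3 := (h1.inv₀ ha.ne').pow 2 |>.mul h2
  have h4 : a⁻¹ ^ 2 * d < δ := by
    rw [inv_pow, inv_mul_lt_iff₀ (by positivity)]; linarith
  filter_upwards [h3.eventually (gt_mem_nhds h4), h1.eventually (lt_mem_nhds ha)] with k hk hk0
  refine ⟨_, norm_normalize (norm_pos_iff.mp hk0), ?_⟩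
  rw [disp_smul]
  simpa using hk.le

theorem reset {ω : Ultrafilter ℕ} {G : Type} [Group G] {E : ℕ → Type}
    [∀ k, NormedAddCommGroup (E k)] [∀ k, InnerProductSpace ℂ (E k)]
    {w : ∀ k, G → E k →L[ℂ] E k} (hw : AsymRep ω w) {F : Type} [Field F] [Fintype F]
    (hF : 400 ≤ Fintype.card F) {x : Fin 4 → F → G}
    (hx : ∀ i, OneParam (x i)) (hH : ∀ i j, i < j → Heis (x i) (x j))
    (h : ∀ᶠ k in ω, ∃ ξ : E k, ‖ξ‖ = 1 ∧ disp (fun s : Fin 4 × F => w k (x s.1 s.2)) ξ ≤ 1)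
    (δ : ℝ) (hδ : 0 < δ) :
    ∀ᶠ k in ω, ∃ ξ : E k, ‖ξ‖ = 1 ∧ disp (fun s : Fin 4 × F => w k (x s.1 s.2)) ξ ≤ δ := by
  classical
  let ξ : ∀ k, E k := fun k =>
    if hk : ∃ ξ : E k, ‖ξ‖ = 1 ∧ disp (fun s : Fin 4 × F => w k (x s.1 s.2)) ξ ≤ 1
    then hk.choose else 0
  have hξ1 : ∀ k, ‖ξ k‖ ≤ 1 := by
    intro k; simp only [ξ]; split_ifs with hk
    · exact hk.choose_spec.1.le
    · simp
  have hξ2 : ∀ᶠ k in ω, ‖ξ k‖ = 1 ∧ disp (fun s : Fin 4 × F => w k (x s.1 s.2)) (ξ k) ≤ 1 := by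
    filter_upwards [h] with k hk
    simp only [ξ, dif_pos hk]; exact hk.choose_spec
  obtain ⟨V, _, _, π, Λ, v₀, h1, h2, h3, h4⟩ := exists_limit_rep hw ξ hξ1
  have hD : ∀ v, Tendsto (fun k => disp (fun s : Fin 4 × F => w k (x s.1 s.2)) (Λ k v)) ω
      (𝓝 (disp (fun s : Fin 4 × F => π (x s.1 s.2)) v)) := fun v =>
    tendsto_finsetSum _ fun s _ => (tendsto_disp_lift h2 h3 _ v v).pow 2
  have hv₀ : ‖v₀‖ = 1 := tendsto_norm_v0 h2 h4 (hξ2.mono fun k hk => hk.1)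
  have hv₁ : disp (fun s : Fin 4 × F => π (x s.1 s.2)) v₀ ≤ 1 :=
    le_of_tendsto (tendsto_disp_v0 hw h2 h3 h4 fun s : Fin 4 × F => x s.1 s.2)
      (hξ2.mono fun k hk => hk.2)
  obtain ⟨η, hη1, hη2⟩ := gap_complex h1 hF hx hH v₀ (by
    rw [hv₀]; have : (400 : ℝ) ≤ Fintype.card F := by exact_mod_cast hF
    linarith) (δ / 2) (by positivity)
  exact eventually_unit (fun k (s : Fin 4 × F) => w k (x s.1 s.2)) (fun k => Λ k η) one_pos
    (by linarith) (hη1 ▸ h2 η) (hD η)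

end Crest.Agent.R73
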