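import Mathlib
import Crest.Agent.R73.Limit

/-!
Self-similar structure of the subgroup `G`, its action on the levels `Y n` of a rooted tree and
the spaces `W n H` of `H`-valued functions with zero sums over the last letter.
-/

set_option autoImplicit false

namespace Crest.Agent.R73

open Filter Topology Finset
open scoped InnerProductSpace

/-- The subgroup generated by four one-parameter subgroups. -/
def genG {Γ F : Type} [Group Γ] (x : Fin 4 → F → Γ) : Subgroup Γ :=
  Subgroup.closure (Set.range fun s : Fin 4 × F => x s.1 s.2)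

/-- The group-theoretic data used in the argument. -/
structure Data (Γ : Type) [Group Γ] (F : Type) [Field F] (R : Type) [AddCommGroup R] where
  x : Fin 4 → F → Γ
  x_one : ∀ i, OneParam (x i)
  heis : ∀ i j, i < j → Heis (x i) (x j)
  τ : R → Γ
  ex : ∀ i a r, ∃ r', ∃ g' ∈ genG x, x i a * τ r = τ r' * g'
  uniq : ∀ r r', ∀ g ∈ genG x, τ r = τ r' * g → r = r'
  v : ℕ → R → Γ
  v_mem : ∀ n a, v n a ∈ genG x
  v_zero : ∀ a r, v 0 a * τ r = τ (r + a)
  v_succ : ∀ n a r, v (n + 1) a * τ r = τ r * v n a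
  conj : ∀ i a, ∃ g' ∈ genG x, τ 0 * x i a = g' * τ 0

/-- words of length `n + 1` -/
def Y (R : Type) : ℕ → Type
  | 0 => R
  | n + 1 => R × Y R n

instance instFintypeY (R : Type) [Fintype R] : ∀ n, Fintype (Y R n)
  | 0 => inferInstanceAs (Fintype R)
  | n + 1 => @instFintypeProd R (Y R n) _ (instFintypeY R n)

theorem sum_Y_succ {R M : Type} [Fintype R] [AddCommMonoid M] (n : ℕ) (f : Y R (n + 1) → M) :
    ∑ y, f y = ∑ r : R, ∑ y : Y R n, f (r, y) :=
  Fintype.sum_prod_type (f := (f : R × Y R n → M))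

/-- zero sums over the last letter -/
def ZS {R H : Type} [Fintype R] [AddCommMonoid H] : ∀ n, (Y R n → H) → Prop
  | 0, f => ∑ r : R, f r = 0
  | n + 1, f => ∀ r : R, ZS n fun y => f (r, y)

theorem ZS.map {R H H' : Type} [Fintype R] [AddCommMonoid H] [AddCommMonoid H'] (φ : H →+ H') :
    ∀ {n} {f : Y R n → H}, ZS n f → ZS n fun y => φ (f y)
  | 0, f, h => by
    have h' : ∑ r : R, f r = 0 := h
    show ∑ r : R, φ (f r) = 0
    rw [← map_sum, h', map_zero]
  | _ + 1, _, h => fun r => ZS.map φ (h r)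

theorem ZS.zero {R H : Type} [Fintype R] [AddCommMonoid H] : ∀ n, ZS n fun _ : Y R n => (0 : H)
  | 0 => by simp [ZS]
  | n + 1 => fun _ => ZS.zero n

theorem ZS.add {R H : Type} [Fintype R] [AddCommMonoid H] :
    ∀ {n} {f g : Y R n → H}, ZS n f → ZS n g → ZS n fun y => f y + g y
  | 0, f, g, h1, h2 => by
    have h1' : ∑ r : R, f r = 0 := h1
    have h2' : ∑ r : R, g r = 0 := h2
    show ∑ r : R, (f r + g r) = 0
    rw [sum_add_distrib, h1', h2', add_zero]
  | _ + 1, _, _, h1, h2 => fun r => ZS.add (h1 r) (h2 r)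

theorem ZS.sum {R H ι : Type} [Fintype R] [AddCommMonoid H] {n : ℕ} (s : Finset ι)
    (f : ι → Y R n → H) (h : ∀ i ∈ s, ZS n (f i)) : ZS n fun y => ∑ i ∈ s, f i y := by
  classical
  induction s using Finset.induction_on with
  | empty => simpa using ZS.zero n
  | insert a s ha ih =>
    simp only [sum_insert ha]
    exact ZS.add (h a (mem_insert_self _ _)) (ih fun i hi => h i (mem_insert_of_mem hi))

/-- The submodule of functions with zero sums over the last letter. -/
def WS (R : Type) [Fintype R] (n : ℕ) (H : Type) [NormedAddCommGroup H] [InnerProductSpace ℂ H] :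
    Submodule ℂ (PiLp 2 fun _ : Y R n => H) where
  carrier := {f | ZS n fun y => f y}
  add_mem' h1 h2 := ZS.add h1 h2
  zero_mem' := ZS.zero n
  smul_mem' c _ h := ZS.map (DistribSMul.toAddMonoidHom H c) h

/-- The inner product space of functions with zero sums over the last letter. -/
def W (R : Type) [Fintype R] (n : ℕ) (H : Type) [NormedAddCommGroup H] [InnerProductSpace ℂ H] :
    Type := WS R n H

section W

variable {R : Type} [Fintype R] {n : ℕ} {H : Type} [NormedAddCommGroup H] [InnerProductSpace ℂ H]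

noncomputable instance : NormedAddCommGroup (W R n H) :=
  inferInstanceAs (NormedAddCommGroup (WS R n H))

noncomputable instance : InnerProductSpace ℂ (W R n H) :=
  inferInstanceAs (InnerProductSpace ℂ (WS R n H))

/-- evaluation -/
def W.ev (f : W R n H) (y : Y R n) : H := (show WS R n H from f).1 y

theorem W.zs (f : W R n H) : ZS n f.ev := (show WS R n H from f).2

theorem W_norm_sq (f : W R n H) : ‖f‖ ^ 2 = ∑ y, ‖f.ev y‖ ^ 2 :=
  PiLp.norm_sq_eq_of_L2 _ (show WS R n H from f).1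

theorem W_inner (f g : W R n H) : ⟪f, g⟫_ℂ = ∑ y, ⟪f.ev y, g.ev y⟫_ℂ :=
  PiLp.inner_apply (show WS R n H from f).1 (show WS R n H from g).1

/-- build an element of `W` -/
def W.mk (f : Y R n → H) (h : ZS n f) : W R n H := (⟨WithLp.toLp 2 f, h⟩ : WS R n H)

@[simp] theorem W.mk_apply (f : Y R n → H) (h : ZS n f) (y : Y R n) : (W.mk f h).ev y = f y := rfl

theorem W.ext {f g : W R n H} (h : ∀ y, f.ev y = g.ev y) : f = g :=
  Subtype.ext (PiLp.ext h)

@[simp] theorem W.ev_add (f g : W R n H) (y : Y R n) : (f + g).ev y = f.ev y + g.ev y := rfl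
@[simp] theorem W.ev_sub (f g : W R n H) (y : Y R n) : (f - g).ev y = f.ev y - g.ev y := rfl
@[simp] theorem W.ev_zero (y : Y R n) : (0 : W R n H).ev y = 0 := rfl
@[simp] theorem W.ev_smul (c : ℂ) (f : W R n H) (y : Y R n) : (c • f).ev y = c • f.ev y := rfl

theorem W.ev_sum {ι : Type} (s : Finset ι) (f : ι → W R n H) (y : Y R n) :
    (∑ i ∈ s, f i).ev y = ∑ i ∈ s, (f i).ev y :=
  map_sum (AddMonoidHom.mk' (fun f : W R n H => f.ev y) fun _ _ => rfl) f s

end W

namespace Data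

variable {Γ : Type} [Group Γ] {F : Type} [Field F] {R : Type} [AddCommGroup R] (D : Data Γ F R)

/-- the subgroup with property (T) -/
abbrev G : Subgroup Γ := genG D.x

/-- generators as elements of the subgroup -/
def xG (i : Fin 4) (a : F) : D.G := ⟨D.x i a, Subgroup.subset_closure ⟨(i, a), rfl⟩⟩

/-- translations as elements of the subgroup -/
def vG (n : ℕ) (a : R) : D.G := ⟨D.v n a, D.v_mem n a⟩

@[simp] theorem coe_xG (i : Fin 4) (a : F) : (D.xG i a : Γ) = D.x i a := rfl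
@[simp] theorem coe_vG (n : ℕ) (a : R) : (D.vG n a : Γ) = D.v n a := rfl

theorem xG_one (i : Fin 4) : OneParam (D.xG i) := fun a b => Subtype.ext (D.x_one i a b)

theorem xG_heis (i j : Fin 4) (h : i < j) : Heis (D.xG i) (D.xG j) := by
  obtain ⟨z, h1, h2, h3, h4⟩ := D.heis i j h
  have hz : ∀ c, z c ∈ D.G := by
    intro c
    have : z c = (D.x j c * D.x i 1)⁻¹ * (D.x i 1 * D.x j c) := by
      rw [h2, one_mul]; group
    rw [this]
    exact mul_mem (inv_mem (mul_mem (D.xG j c).2 (D.xG i 1).2)) (mul_mem (D.xG i 1).2 (D.xG j c).2)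
  exact ⟨fun c => ⟨z c, hz c⟩, fun a b => Subtype.ext (h1 a b), fun a b => Subtype.ext (h2 a b),
    fun a b => Subtype.ext (h3 a b), fun a b => Subtype.ext (h4 a b)⟩

theorem induction {p : D.G → Prop} (gen : ∀ i a, p (D.xG i a)) (one : p 1)
    (mul : ∀ g h, p g → p h → p (g * h)) (g : D.G) : p g := by
  obtain ⟨g, hg⟩ := g
  induction hg using Subgroup.closure_induction'' with
  | mem x hx => obtain ⟨⟨i, a⟩, rfl⟩ := hx; exact gen i a
  | inv_mem x hx =>
    obtain ⟨⟨i, a⟩, rfl⟩ := hx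
    have := gen i (-a)
    rwa [(D.xG_one i).neg] at this
  | one => exact one
  | mul x y hx hy h1 h2 => exact mul _ _ h1 h2

theorem ex_all (g : D.G) : ∀ r, ∃ q : R × D.G, (g : Γ) * D.τ r = D.τ q.1 * q.2 := by
  induction g using D.induction with
  | gen i a => intro r; obtain ⟨r', g', hg', h⟩ := D.ex i a r; exact ⟨(r', ⟨g', hg'⟩), h⟩
  | one => intro r; exact ⟨(r, 1), by simp⟩
  | mul g h h1 h2 =>
    intro r
    obtain ⟨⟨r', h'⟩, e2⟩ := h2 r
    obtain ⟨⟨r'', g'⟩, e1⟩ := h1 r'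
    refine ⟨(r'', g' * h'), ?_⟩
    simp only [Subgroup.coe_mul] at *
    rw [mul_assoc, e2, ← mul_assoc, e1, mul_assoc]

theorem conj_all (g : D.G) : ∃ g' : D.G, D.τ 0 * g = g' * D.τ 0 := by
  induction g using D.induction with
  | gen i a => obtain ⟨g', hg', h⟩ := D.conj i a; exact ⟨⟨g', hg'⟩, h⟩
  | one => exact ⟨1, by simp⟩
  | mul g h h1 h2 =>
    obtain ⟨g', e1⟩ := h1
    obtain ⟨h', e2⟩ := h2
    refine ⟨g' * h', ?_⟩
    simp only [Subgroup.coe_mul]
    rw [← mul_assoc, e1, mul_assoc, e2, mul_assoc]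

/-- action on the first letter -/
noncomputable def act (g : D.G) (r : R) : R := (D.ex_all g r).choose.1

/-- restriction -/
noncomputable def res (g : D.G) (r : R) : D.G := (D.ex_all g r).choose.2

theorem spec (g : D.G) (r : R) : (g : Γ) * D.τ r = D.τ (D.act g r) * D.res g r :=
  (D.ex_all g r).choose_spec

theorem act_res_eq {g g' : D.G} {r r' : R} (h : (g : Γ) * D.τ r = D.τ r' * g') :
    D.act g r = r' ∧ D.res g r = g' := by
  have h1 := D.spec g r
  have h2 : D.act g r = r' := by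
    refine D.uniq _ _ (g' * (D.res g r)⁻¹ : D.G) (g' * (D.res g r)⁻¹ : D.G).2 ?_
    simp only [Subgroup.coe_mul, Subgroup.coe_inv]
    rw [← mul_assoc, ← h, h1]; group
  refine ⟨h2, Subtype.ext ?_⟩
  rw [h2, h] at h1
  exact (mul_left_cancel h1).symm

theorem act_res_one (r : R) : D.act 1 r = r ∧ D.res 1 r = 1 := D.act_res_eq (by simp)

theorem act_res_mul (g h : D.G) (r : R) :
    D.act (g * h) r = D.act g (D.act h r) ∧ D.res (g * h) r = D.res g (D.act h r) * D.res h r := by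
  refine D.act_res_eq ?_
  simp only [Subgroup.coe_mul]
  rw [mul_assoc, D.spec, ← mul_assoc, D.spec, mul_assoc]

/-- the action on words -/
noncomputable def sm : ∀ n, D.G → Y R n → Y R n
  | 0, g, r => D.act g r
  | n + 1, g, y => (D.act g y.1, sm n (D.res g y.1) y.2)

theorem sm_one : ∀ n (y : Y R n), D.sm n 1 y = y
  | 0, r => (D.act_res_one r).1
  | n + 1, y => by
    show ((D.act 1 y.1, D.sm n (D.res 1 y.1) y.2) : R × Y R n) = y
    rw [(D.act_res_one _).1, (D.act_res_one _).2, sm_one n]; rfl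

theorem sm_mul : ∀ n (g h : D.G) (y : Y R n), D.sm n (g * h) y = D.sm n g (D.sm n h y)
  | 0, g, h, r => (D.act_res_mul g h r).1
  | n + 1, g, h, y => by
    show ((D.act (g * h) y.1, D.sm n (D.res (g * h) y.1) y.2) : R × Y R n) =
      (D.act g (D.act h y.1), D.sm n (D.res g (D.act h y.1)) (D.sm n (D.res h y.1) y.2))
    rw [(D.act_res_mul _ _ _).1, (D.act_res_mul _ _ _).2, sm_mul n]

/-- the action as a permutation -/
noncomputable def perm (n : ℕ) (g : D.G) : Equiv.Perm (Y R n) where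
  toFun := D.sm n g
  invFun := D.sm n g⁻¹
  left_inv y := by rw [← D.sm_mul, inv_mul_cancel, D.sm_one]
  right_inv y := by rw [← D.sm_mul, mul_inv_cancel, D.sm_one]

variable [Fintype R]

theorem sum_sm {M : Type} [AddCommMonoid M] (n : ℕ) (g : D.G) (f : Y R n → M) :
    ∑ y, f (D.sm n g y) = ∑ y, f y := Equiv.sum_comp (D.perm n g) f

theorem ZS_sm {H : Type} [AddCommMonoid H] :
    ∀ {n} (g : D.G) {f : Y R n → H}, ZS n f → ZS n fun y => f (D.sm n g y)
  | 0, g, f, h => (D.sum_sm 0 g f).trans h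
  | _ + 1, g, _, h => fun r => ZS_sm (D.res g r) (h (D.act g r))

omit [Fintype R] in
theorem sm_v_lt : ∀ n m, n < m → ∀ (a : R) (y : Y R n), D.sm n (D.vG m a) y = y
  | _, 0, h, _, _ => absurd h (Nat.not_lt_zero _)
  | 0, m + 1, _, a, r => (D.act_res_eq (g := D.vG (m + 1) a) (g' := D.vG m a) (D.v_succ m a r)).1
  | n + 1, m + 1, h, a, y => by
    have := D.act_res_eq (g := D.vG (m + 1) a) (g' := D.vG m a) (D.v_succ m a y.1)
    show ((D.act _ y.1, D.sm n (D.res _ y.1) y.2) : R × Y R n) = y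
    rw [this.1, this.2, sm_v_lt n m (by omega)]; rfl

theorem sum_sm_v {H : Type} [AddCommMonoid H] :
    ∀ {n} {f : Y R n → H}, ZS n f → ∀ y, ∑ a : R, f (D.sm n (D.vG n a) y) = 0
  | 0, f, h, r => by
    have h' : ∑ r : R, f r = 0 := h
    rw [← h']
    refine Fintype.sum_equiv (Equiv.addLeft (show R from r)) _ _ fun a => ?_
    have := D.act_res_eq (g := D.vG 0 a) (g' := 1) (r := r) (r' := (show R from r) + a)
      (by simpa using D.v_zero a r)
    exact congrArg f this.1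
  | n + 1, f, h, y => by
    rw [← sum_sm_v (h y.1) y.2]
    refine Finset.sum_congr rfl fun a _ => ?_
    have := D.act_res_eq (g := D.vG (n + 1) a) (g' := D.vG n a) (D.v_succ n a y.1)
    show f ((D.act _ y.1, D.sm n (D.res _ y.1) y.2) : R × Y R n) = _
    rw [this.1, this.2]

variable {H : Type} [NormedAddCommGroup H] [InnerProductSpace ℂ H]

/-- the operator `T ⊗ σ(g)` on `W n H`, as a linear map -/
noncomputable def opL (n : ℕ) (T : H →L[ℂ] H) (g : D.G) : W R n H →ₗ[ℂ] W R n H where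
  toFun f := W.mk (fun y => T (f.ev (D.sm n g⁻¹ y))) (ZS.map (T : H →+ H) (D.ZS_sm g⁻¹ f.zs))
  map_add' f f' := W.ext fun y => by simp
  map_smul' c f := W.ext fun y => by simp

theorem opL_norm_sq (n : ℕ) (T : H →L[ℂ] H) (g : D.G) (f : W R n H) :
    ‖D.opL n T g f‖ ^ 2 = ∑ y, ‖T (f.ev y)‖ ^ 2 := by
  rw [W_norm_sq]; exact D.sum_sm n g⁻¹ fun y => ‖T (f.ev y)‖ ^ 2

theorem opL_norm_le (n : ℕ) (T : H →L[ℂ] H) (g : D.G) (f : W R n H) :
    ‖D.opL n T g f‖ ≤ ‖T‖ * ‖f‖ := by
  refine (pow_le_pow_iff_left₀ (norm_nonneg _) (by positivity) two_ne_zero).mp ?_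
  rw [opL_norm_sq, mul_pow, W_norm_sq, mul_sum]
  refine Finset.sum_le_sum fun y _ => ?_
  rw [← mul_pow]; gcongr; exact T.le_opNorm _

/-- the operator `T ⊗ σ(g)` on `W n H` -/
noncomputable def op (n : ℕ) (T : H →L[ℂ] H) (g : D.G) : W R n H →L[ℂ] W R n H :=
  (D.opL n T g).mkContinuous ‖T‖ (D.opL_norm_le n T g)

@[simp] theorem op_apply (n : ℕ) (T : H →L[ℂ] H) (g : D.G) (f : W R n H) (y : Y R n) :
    (D.op n T g f).ev y = T (f.ev (D.sm n g⁻¹ y)) := rfl

theorem op_norm_sq (n : ℕ) (T : H →L[ℂ] H) (g : D.G) (f : W R n H) :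
    ‖D.op n T g f‖ ^ 2 = ∑ y, ‖T (f.ev y)‖ ^ 2 := D.opL_norm_sq n T g f

theorem norm_op_le (n : ℕ) (T : H →L[ℂ] H) (g : D.G) : ‖D.op n T g‖ ≤ ‖T‖ :=
  LinearMap.mkContinuous_norm_le _ (norm_nonneg _) _

theorem op_mul (n : ℕ) (T T' : H →L[ℂ] H) (g h : D.G) :
    D.op n T g * D.op n T' h = D.op n (T * T') (g * h) := by
  ext1 f; refine W.ext fun y => ?_
  simp [D.sm_mul]

theorem op_sub (n : ℕ) (T T' : H →L[ℂ] H) (g : D.G) :
    D.op n T g - D.op n T' g = D.op n (T - T') g := by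
  ext1 f; refine W.ext fun y => ?_
  simp

theorem op_one (n : ℕ) : D.op n (1 : H →L[ℂ] H) 1 = 1 := by
  ext1 f; refine W.ext fun y => ?_
  simp [D.sm_one]

theorem op_iso (n : ℕ) (T : H →L[ℂ] H) (g : D.G) {ε : ℝ}
    (h : ∀ v, |‖T v‖ ^ 2 - ‖v‖ ^ 2| ≤ ε * ‖v‖ ^ 2) (f : W R n H) :
    |‖D.op n T g f‖ ^ 2 - ‖f‖ ^ 2| ≤ ε * ‖f‖ ^ 2 := by
  rw [op_norm_sq, W_norm_sq, ← sum_sub_distrib, mul_sum]
  exact (abs_sum_le_sum_abs _ _).trans (Finset.sum_le_sum fun y _ => h _)

theorem asymRep_op {ω : Ultrafilter ℕ} {U : ℕ → Γ → H →L[ℂ] H} (hU : AsymRep (E := fun _ => H) ω U)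
    (n : ℕ → ℕ) : AsymRep (E := fun k => W R (n k) H) ω
      fun k (g : D.G) => D.op (n k) (U k g) g where
  bdd g := by
    obtain ⟨C, hC⟩ := hU.bdd g
    exact ⟨C, fun k => (D.norm_op_le _ _ _).trans (hC k)⟩
  mul g h := by
    refine squeeze_zero (fun k => ContinuousLinearMap.opNorm_nonneg _) (fun k => ?_) (hU.mul g h)
    rw [op_mul, op_sub]; exact D.norm_op_le _ _ _
  one := by
    refine squeeze_zero (fun k => ContinuousLinearMap.opNorm_nonneg _) (fun k => ?_) hU.one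
    rw [← D.op_one, op_sub]; exact D.norm_op_le _ _ _
  iso g := by
    obtain ⟨ε, h1, h2⟩ := hU.iso g
    exact ⟨ε, h1, fun k f => D.op_iso _ _ _ (h2 k) f⟩

end Data

end Crest.Agent.R73
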