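import Mathlib
import Crest.Agent.R73.Tree

/-!
The induction over the levels of the tree, for asymptotic representations.
-/

set_option autoImplicit false

namespace Crest.Agent.R73

open Filter Topology Finset
open scoped InnerProductSpace

theorem disp_nonneg {ι E : Type*} [Fintype ι] [SeminormedAddCommGroup E] (T : ι → E → E) (v : E) :
    0 ≤ disp T v := Finset.sum_nonneg fun _ _ => sq_nonneg _

theorem le_sqrt_disp {ι E : Type*} [Fintype ι] [SeminormedAddCommGroup E] (T : ι → E → E) (v : E)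
    (s : ι) : ‖T s v - v‖ ≤ √(disp T v) :=
  Real.le_sqrt_of_sq_le (Finset.single_le_sum (f := fun s => ‖T s v - v‖ ^ 2)
    (fun _ _ => sq_nonneg _) (mem_univ s))

/-- slices of a function on the next level -/
def slice {R : Type} [Fintype R] {n : ℕ} {H : Type} [NormedAddCommGroup H]
    [InnerProductSpace ℂ H] (f : W R (n + 1) H) (r : R) : W R n H :=
  W.mk (fun y => f.ev (r, y)) (f.zs r)

theorem norm_sq_succ {R : Type} [Fintype R] {n : ℕ} {H : Type} [NormedAddCommGroup H]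
    [InnerProductSpace ℂ H] (f : W R (n + 1) H) : ‖f‖ ^ 2 = ∑ r, ‖slice f r‖ ^ 2 := by
  rw [W_norm_sq, sum_Y_succ]
  exact Finset.sum_congr rfl fun r _ => (W_norm_sq (slice f r)).symm

/-- the induced vector on the next level -/
def lift {R : Type} [Fintype R] {n : ℕ} {H : Type} [NormedAddCommGroup H]
    [InnerProductSpace ℂ H] (T : R → H →L[ℂ] H) (f : W R n H) : W R (n + 1) H :=
  W.mk (fun y : R × Y R n => T y.1 (f.ev y.2)) fun r => ZS.map (T r : H →+ H) f.zs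

namespace Data

variable {Γ : Type} [Group Γ] {F : Type} [Field F] {R : Type} [AddCommGroup R] (D : Data Γ F R)
  [Fintype F]

theorem disp_control {V : Type} [SeminormedAddCommGroup V] [InnerProductSpace ℂ V]
    (π : D.G →* Module.End ℂ V) (hπ : ∀ g v, ‖π g v‖ = ‖v‖) (g : D.G) :
    ∃ C : ℝ, 0 ≤ C ∧ ∀ v, ‖π g v - v‖ ≤ C * √(disp (fun s : Fin 4 × F => π (D.xG s.1 s.2)) v) := by
  induction g using D.induction with
  | gen i a =>
    exact ⟨1, zero_le_one, fun v => by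
      simpa using le_sqrt_disp (fun s : Fin 4 × F => π (D.xG s.1 s.2)) v (i, a)⟩
  | one => exact ⟨0, le_rfl, fun v => by simp⟩
  | mul g h h1 h2 =>
    obtain ⟨C, hC, h1⟩ := h1
    obtain ⟨C', hC', h2⟩ := h2
    refine ⟨C + C', by positivity, fun v => ?_⟩
    have : π (g * h) v - v = π g (π h v - v) + (π g v - v) := by simp
    rw [this, add_mul]
    refine (norm_add_le _ _).trans ?_
    rw [hπ]; linarith [h1 v, h2 v]

variable [Fintype R] {H : Type} [NormedAddCommGroup H] [InnerProductSpace ℂ H]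

/-- there is an almost invariant unit vector at level `n` -/
def Good (U : Γ → H →L[ℂ] H) (n : ℕ) (δ : ℝ) : Prop :=
  ∃ f : W R n H, ‖f‖ = 1 ∧
    disp (fun s : Fin 4 × F => D.op n (U (D.xG s.1 s.2)) (D.xG s.1 s.2)) f ≤ δ

omit [Fintype F] in
theorem slice_lift (n : ℕ) (T : R → H →L[ℂ] H) (f : W R n H) (r : R) :
    slice (lift T f) r = D.op n (T r) 1 f := by
  refine W.ext fun y => ?_
  simp [slice, lift, D.sm_one]

omit [Fintype F] in
theorem slice_op_lift_sub (n : ℕ) (T : R → H →L[ℂ] H) (S : H →L[ℂ] H) (g : D.G) (f : W R n H)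
    (r : R) : slice (D.op (n + 1) S g (lift T f) - lift T f) r =
      D.op n (S * T (D.act g⁻¹ r)) (D.res g⁻¹ r)⁻¹ f - D.op n (T r) 1 f := by
  refine W.ext fun y => ?_
  simp [slice, lift, D.sm_one]
  rfl

theorem step {ω : Ultrafilter ℕ} (hω : Tendsto (fun k : ℕ => 1 / ((k : ℝ) + 1)) ω (𝓝 0))
    {U : ℕ → Γ → H →L[ℂ] H} (hU : AsymRep (E := fun _ => H) ω U) (n : ℕ → ℕ)
    (h : ∀ δ > 0, ∀ᶠ k in ω, D.Good (U k) (n k) δ) (δ : ℝ) (hδ : 0 < δ) :
    ∀ᶠ k in ω, D.Good (U k) (n k + 1) δ := by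
  have hw := D.asymRep_op hU n
  obtain ⟨ξ, h1, h2, h3⟩ := diag_choice hω (α := fun k => W R (n k) H) (fun _ => 0)
    (fun _ f => ‖f‖ = 1) (fun k f =>
      disp (fun s : Fin 4 × F => D.op (n k) (U k (D.xG s.1 s.2)) (D.xG s.1 s.2)) f)
    (fun _ _ => disp_nonneg _ _) h
  have hξ : ∀ k, ‖ξ k‖ ≤ 1 := fun k => by
    rcases h1 k with h | h <;> simp [h]
  obtain ⟨V, _, _, π, Λ, v₀, e1, e2, e3, e4⟩ := exists_limit_rep hw ξ hξ
  have hv₀ : ‖v₀‖ = 1 := tendsto_norm_v0 e2 e4 h2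
  have hv₁ : disp (fun s : Fin 4 × F => π (D.xG s.1 s.2)) v₀ = 0 :=
    tendsto_nhds_unique (tendsto_disp_v0 hw e2 e3 e4 fun s : Fin 4 × F => D.xG s.1 s.2) h3
  have hinv : ∀ g : D.G, Tendsto (fun k => ‖D.op (n k) (U k g) g (Λ k v₀) - Λ k v₀‖) ω (𝓝 0) := by
    intro g
    obtain ⟨C, -, hC⟩ := D.disp_control π e1 g
    have := hC v₀
    rw [hv₁, Real.sqrt_zero, mul_zero] at this
    have e := tendsto_disp_lift e2 e3 g v₀ v₀
    rwa [le_antisymm this (norm_nonneg _)] at e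
  have hn : Tendsto (fun k => ‖Λ k v₀‖) ω (𝓝 1) := hv₀ ▸ e2 v₀
  have hR : (0 : ℝ) < Fintype.card R := by exact_mod_cast Fintype.card_pos
  refine eventually_unit (E := fun k => W R (n k + 1) H)
    (fun k (s : Fin 4 × F) => D.op (n k + 1) (U k (D.xG s.1 s.2)) (D.xG s.1 s.2))
    (fun k => lift (fun r => U k (D.τ r)) (Λ k v₀)) (a := √(Fintype.card R)) (d := 0)
    (by positivity) (by positivity) ?_ ?_
  · have : Tendsto (fun k => ‖lift (fun r => U k (D.τ r)) (Λ k v₀)‖ ^ 2) ω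
        (𝓝 (∑ _r : R, (1 : ℝ))) := by
      simp only [norm_sq_succ, D.slice_lift]
      refine tendsto_finsetSum _ fun r _ => ?_
      obtain ⟨ε, hε, hε'⟩ := hU.iso (D.τ r)
      have a1 : Tendsto (fun k => ‖D.op (n k) (U k (D.τ r)) 1 (Λ k v₀)‖ ^ 2 - ‖Λ k v₀‖ ^ 2) ω
          (𝓝 0) := by
        rw [tendsto_zero_iff_abs_tendsto_zero]
        refine squeeze_zero (fun k => abs_nonneg _) (fun k => D.op_iso _ _ _ (hε' k) _) ?_
        simpa using hε.mul (hn.pow 2)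
      simpa using a1.add (hn.pow 2)
    simpa using this.sqrt
  · have : (0 : ℝ) = ∑ _s : Fin 4 × F, ∑ _r : R, (0 : ℝ) ^ 2 := by simp
    rw [this]
    refine tendsto_finsetSum _ fun s _ => ?_
    simp only [norm_sq_succ, D.slice_op_lift_sub]
    refine tendsto_finsetSum _ fun r _ => Tendsto.pow ?_ 2
    set g := D.xG s.1 s.2
    set r' := D.act g⁻¹ r
    set g' := (D.res g⁻¹ r)⁻¹
    have key : (g : Γ) * D.τ r' = D.τ r * g' := by
      have := D.spec g⁻¹ r
      simp only [g', r', Subgroup.coe_inv] at this ⊢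
      rw [eq_mul_inv_iff_mul_eq, mul_assoc, ← this]; group
    have a1 : Tendsto (fun k => ‖U k g * U k (D.τ r') - U k (D.τ r) * U k g'‖) ω (𝓝 0) := by
      refine squeeze_zero (fun k => norm_nonneg _) (fun k => ?_)
        (by simpa using (hU.mul g (D.τ r')).add (hU.mul (D.τ r) g'))
      rw [key, norm_sub_rev (U k _) (U k g * _)]
      exact norm_sub_le_norm_sub_add_norm_sub _ _ _
    obtain ⟨C, hC⟩ := hU.bdd (D.τ r)
    refine squeeze_zero (fun k => norm_nonneg _) (fun k => ?_)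
      (by simpa using (a1.mul hn).add ((hinv g').const_mul C))
    have e : D.op (n k) (U k g * U k (D.τ r')) g' (Λ k v₀) - D.op (n k) (U k (D.τ r)) 1 (Λ k v₀)
        = D.op (n k) (U k g * U k (D.τ r') - U k (D.τ r) * U k g') g' (Λ k v₀)
          + D.op (n k) (U k (D.τ r)) 1 (D.op (n k) (U k g') g' (Λ k v₀) - Λ k v₀) := by
      refine W.ext fun y => ?_
      simp [D.sm_one]
    rw [e]
    refine (norm_add_le _ _).trans (add_le_add (D.opL_norm_le _ _ _ _) ?_)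
    exact (D.opL_norm_le _ _ _ _).trans (mul_le_mul_of_nonneg_right (hC k) (norm_nonneg _))

omit [Fintype F] [Fintype R] in
theorem e_one : OneParam fun a : R => (D.τ 0)⁻¹ * D.τ a := by
  intro a b
  have h1 := D.v_zero a 0
  have h2 := D.v_zero a b
  rw [zero_add] at h1
  show (D.τ 0)⁻¹ * D.τ (a + b) = (D.τ 0)⁻¹ * D.τ a * ((D.τ 0)⁻¹ * D.τ b)
  rw [add_comm, ← h2, ← h1]; group

/-- the element of the group algebra whose norm starts the induction -/
def comb {M : Type} [AddCommGroup M] (T : Γ → M) : M :=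
  ∑ s : Fin 4 × F, (Fintype.card R • T (D.x s.1 s.2) -
    ∑ a : R, T (D.x s.1 s.2 * ((D.τ 0)⁻¹ * D.τ a)))

theorem base_real {V : Type} [SeminormedAddCommGroup V] [InnerProductSpace ℝ V]
    (π : Γ →* Module.End ℝ V) (hπ : ∀ g v, ‖π g v‖ = ‖v‖) (v₀ : V) (h0 : ‖v₀‖ = 1)
    (h : (Fintype.card (Fin 4 × F) : ℝ) * Fintype.card R ≤ ‖D.comb fun g => π g v₀‖) :
    ∃ ζ : V, ‖ζ‖ = 1 ∧ (∀ i a, ‖π (D.x i a) ζ - ζ‖ = 0) ∧ ∑ a : R, π (D.τ a) ζ = 0 := by
  have hE := isProj_avg hπ D.e_one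
  set E := avg π fun a : R => (D.τ 0)⁻¹ * D.τ a with hEdef
  have hR : (0 : ℝ) < Fintype.card R := card_pos'
  have hS : (0 : ℝ) < Fintype.card (Fin 4 × F) := card_pos'
  have hsum : ∀ v, ∑ a : R, π ((D.τ 0)⁻¹ * D.τ a) v = (Fintype.card R : ℝ) • E v := by
    intro v; rw [hEdef, avg_apply, smul_smul, mul_inv_cancel₀ hR.ne', one_smul]
  set ζ := v₀ - E v₀ with hζ
  have hζ1 : ‖ζ‖ ≤ 1 := by simpa [h0] using hE.compl.norm_le v₀
  set m := (Fintype.card (Fin 4 × F) : ℝ)⁻¹ • ∑ s : Fin 4 × F, π (D.x s.1 s.2) ζ with hm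
  have hm' : ∑ s : Fin 4 × F, π (D.x s.1 s.2) ζ = (Fintype.card (Fin 4 × F) : ℝ) • m := by
    rw [hm, smul_smul, mul_inv_cancel₀ hS.ne', one_smul]
  have hc : (D.comb fun g => π g v₀) =
      (Fintype.card R : ℝ) • ∑ s : Fin 4 × F, π (D.x s.1 s.2) ζ := by
    rw [comb, smul_sum]
    refine Finset.sum_congr rfl fun s _ => ?_
    simp only [map_mul π (D.x s.1 s.2), Module.End.mul_apply]
    rw [← map_sum, hsum, hζ, map_sub, map_smul, smul_sub, ← Nat.cast_smul_eq_nsmul ℝ]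
  have hm1 : 1 ≤ ‖m‖ := by
    rw [hc, hm', norm_smul, norm_smul, Real.norm_of_nonneg hR.le, Real.norm_of_nonneg hS.le] at h
    have : 0 < (Fintype.card (Fin 4 × F) : ℝ) * Fintype.card R := by positivity
    nlinarith
  have hvar : ∑ s : Fin 4 × F, ‖π (D.x s.1 s.2) ζ - m‖ ^ 2 =
      Fintype.card (Fin 4 × F) * (‖ζ‖ ^ 2 - ‖m‖ ^ 2) := by
    simp only [norm_sub_sq_real, hπ, sum_add_distrib, sum_sub_distrib, sum_const, card_univ,
      nsmul_eq_mul, ← mul_sum, ← sum_inner]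
    rw [hm', inner_smul_left, real_inner_self_eq_norm_sq]
    simp only [conj_trivial]; ring
  have hnn : 0 ≤ ∑ s : Fin 4 × F, ‖π (D.x s.1 s.2) ζ - m‖ ^ 2 :=
    Finset.sum_nonneg fun _ _ => sq_nonneg _
  have hle : ‖ζ‖ ^ 2 - ‖m‖ ^ 2 ≤ 0 := by nlinarith [norm_nonneg ζ]
  have hge : 0 ≤ ‖ζ‖ ^ 2 - ‖m‖ ^ 2 := by
    rw [hvar] at hnn; exact nonneg_of_mul_nonneg_right hnn hS |> fun h => by nlinarith
  have hz : ∀ s : Fin 4 × F, ‖π (D.x s.1 s.2) ζ - m‖ = 0 := by
    intro s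
    have : ∑ s : Fin 4 × F, ‖π (D.x s.1 s.2) ζ - m‖ ^ 2 = 0 := by
      rw [hvar, le_antisymm hle hge, mul_zero]
    rw [Finset.sum_eq_zero_iff_of_nonneg fun _ _ => sq_nonneg _] at this
    exact pow_eq_zero_iff two_ne_zero |>.mp (this s (mem_univ s))
  refine ⟨ζ, le_antisymm hζ1 (by nlinarith [norm_nonneg ζ]), fun i a => ?_, ?_⟩
  · have h1 := hz (i, a)
    have h2 := hz (0, 0)
    simp only [(D.x_one 0).zero, map_one, Module.End.one_apply] at h2
    refine le_antisymm ?_ (norm_nonneg _)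
    have := norm_sub_le_norm_sub_add_norm_sub (π (D.x i a) ζ) m ζ
    rw [norm_sub_rev m] at this
    linarith
  · have : ∀ a, π (D.τ a) ζ = π (D.τ 0) (π ((D.τ 0)⁻¹ * D.τ a) ζ) := by
      intro a; rw [← Module.End.mul_apply, ← map_mul]; simp
    simp only [this]
    rw [← map_sum, hsum, hζ, map_sub, hE.idem]; simp

theorem base_complex {V : Type} [SeminormedAddCommGroup V] [InnerProductSpace ℂ V]
    (π : Γ →* Module.End ℂ V) (hπ : ∀ g v, ‖π g v‖ = ‖v‖) (v₀ : V) (h0 : ‖v₀‖ = 1)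
    (h : (Fintype.card (Fin 4 × F) : ℝ) * Fintype.card R ≤ ‖D.comb fun g => π g v₀‖) :
    ∃ ζ : V, ‖ζ‖ = 1 ∧ (∀ i a, ‖π (D.x i a) ζ - ζ‖ = 0) ∧ ∑ a : R, π (D.τ a) ζ = 0 := by
  let _ : InnerProductSpace ℝ V := InnerProductSpace.complexToReal
  let π' : Γ →* Module.End ℝ V :=
    { toFun := fun g => (π g).restrictScalars ℝ
      map_one' := by ext; simp
      map_mul' := by intro a b; ext; simp }
  exact D.base_real π' hπ v₀ h0 h

theorem comb_map {M N : Type} [AddCommGroup M] [AddCommGroup N] (φ : M →+ N) (T : Γ → M) :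
    φ (D.comb T) = D.comb fun g => φ (T g) := by
  simp [comb, map_sum, map_sub, map_nsmul]

theorem comb_tendsto {N : Type} [SeminormedAddCommGroup N] {l : Filter ℕ} (T : ℕ → Γ → N)
    (h : ∀ g, Tendsto (fun k => T k g) l (𝓝 0)) : Tendsto (fun k => D.comb (T k)) l (𝓝 0) := by
  have : (0 : N) = D.comb fun _ => 0 := by simp [comb]
  rw [this]
  unfold comb
  exact tendsto_finsetSum _ fun s _ => ((h _).nsmul _).sub (tendsto_finsetSum _ fun a _ => h _)

theorem comb_sub {M : Type} [AddCommGroup M] (T T' : Γ → M) :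
    D.comb T - D.comb T' = D.comb fun g => T g - T' g := by
  simp only [comb, ← sum_sub_distrib, smul_sub]
  refine Finset.sum_congr rfl fun s _ => ?_
  rw [sum_sub_distrib]; abel

theorem base {ω : Ultrafilter ℕ} (hω : Tendsto (fun k : ℕ => 1 / ((k : ℝ) + 1)) ω (𝓝 0))
    {U : ℕ → Γ → H →L[ℂ] H} (hU : AsymRep (E := fun _ => H) ω U) {c : ℝ}
    (hc : (Fintype.card (Fin 4 × F) : ℝ) * Fintype.card R ≤ c)
    (h : Tendsto (fun k => ‖D.comb (U k)‖) ω (𝓝 c)) (δ : ℝ) (hδ : 0 < δ) :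
    ∀ᶠ k in ω, D.Good (U k) 0 δ := by
  have hR : (0 : ℝ) < Fintype.card R := card_pos'
  have hS : (0 : ℝ) < Fintype.card (Fin 4 × F) := card_pos'
  have hc0 : 0 < c := lt_of_lt_of_le (by positivity) hc
  obtain ⟨ξ, h1, h2, h3⟩ := diag_choice hω (α := fun _ => H) (fun _ => 0)
    (fun _ f => ‖f‖ = 1) (fun k f => |‖D.comb (U k) f‖ - c|) (fun _ _ => abs_nonneg _) (by
      intro ε hε
      have hε' : 0 < min ε c := lt_min hε hc0
      filter_upwards [(Metric.tendsto_nhds.mp h) (min ε c / 2) (by positivity)] with k hk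
      rw [Real.dist_eq, abs_lt] at hk
      have hlt : c - min ε c < ‖D.comb (U k)‖ := by linarith
      obtain ⟨v, hv1, hv2⟩ := ContinuousLinearMap.exists_lt_apply_of_lt_opNorm _ hlt
      have hv0 : v ≠ 0 := by
        rintro rfl; rw [map_zero, norm_zero] at hv2; linarith [min_le_right ε c]
      have hv0' : 0 < ‖v‖ := norm_pos_iff.mpr hv0
      refine ⟨_, norm_normalize hv0, ?_⟩
      have b1 := (D.comb (U k)).le_opNorm (((‖v‖⁻¹ : ℝ) : ℂ) • v)
      rw [norm_normalize hv0] at b1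
      have b2 : ‖D.comb (U k) v‖ ≤ ‖D.comb (U k) (((‖v‖⁻¹ : ℝ) : ℂ) • v)‖ := by
        rw [map_smul, norm_smul, Complex.norm_real, norm_inv, norm_norm]
        exact le_mul_of_one_le_left (norm_nonneg _) ((one_le_inv₀ hv0').mpr hv1.le)
      rw [abs_le]
      constructor <;> linarith [min_le_left ε c])
  have hξ : ∀ k, ‖ξ k‖ ≤ 1 := fun k => by
    rcases h1 k with h | h <;> simp [h]
  obtain ⟨V, _, _, π, Λ, v₀, e1, e2, e3, e4⟩ := exists_limit_rep hU ξ hξ
  have hv₀ : ‖v₀‖ = 1 := tendsto_norm_v0 e2 e4 h2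
  have hcomb : ‖D.comb fun g => π g v₀‖ = c := by
    refine tendsto_nhds_unique (e2 _) ?_
    have a0 : Tendsto (fun k => ‖D.comb (U k) (ξ k)‖) ω (𝓝 c) := by
      rw [tendsto_iff_dist_tendsto_zero]; exact h3
    refine tendsto_of_tendsto_of_dist a0 ?_
    have a1 : Tendsto (fun k => D.comb fun g => U k g (ξ k) - Λ k (π g v₀)) ω (𝓝 0) := by
      refine D.comb_tendsto _ fun g => ?_
      rw [tendsto_zero_iff_norm_tendsto_zero]
      obtain ⟨C, hC⟩ := hU.bdd g
      refine squeeze_zero (fun k => norm_nonneg _) (fun k => ?_)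
        (by simpa using (e4.const_mul C).add (e3 g v₀))
      refine (norm_sub_le_norm_sub_add_norm_sub _ (U k g (Λ k v₀)) _).trans ?_
      rw [norm_sub_rev (U k g (Λ k v₀)), ← map_sub, norm_sub_rev (Λ k v₀)]
      gcongr
      exact (ContinuousLinearMap.le_opNorm _ _).trans (by gcongr; exact hC k)
    rw [tendsto_zero_iff_norm_tendsto_zero] at a1
    refine squeeze_zero (fun k => dist_nonneg) (fun k => ?_) a1
    refine (dist_norm_norm_le _ _).trans (le_of_eq ?_)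
    rw [← D.comb_sub]
    congr 2
    · exact D.comb_map (ContinuousLinearMap.apply ℂ H (ξ k) : (H →L[ℂ] H) →+ H) (U k)
    · exact D.comb_map (Λ k : V →+ H) _
  obtain ⟨ζ, z1, z2, z3⟩ := D.base_complex π e1 v₀ hv₀ (hcomb ▸ hc)
  have z4 : ∀ g : D.G, ‖π g ζ - ζ‖ = 0 := by
    intro g
    obtain ⟨C, -, hC⟩ := D.disp_control (π.comp D.G.subtype) (fun g => e1 g) g
    have := hC ζ
    have e : disp (fun s : Fin 4 × F => (π.comp D.G.subtype) (D.xG s.1 s.2)) ζ = 0 :=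
      Finset.sum_eq_zero fun s _ => by
        have := z2 s.1 s.2
        simp [this]
    rw [e, Real.sqrt_zero, mul_zero] at this
    exact le_antisymm this (norm_nonneg _)
  let f : ℕ → W R 0 H := fun k => W.mk (fun r : R => Λ k (π (D.τ r) ζ)) (by
    show ∑ r : R, Λ k (π (D.τ r) ζ) = 0
    rw [← map_sum, z3, map_zero])
  refine eventually_unit (E := fun k => W R 0 H)
    (fun k (s : Fin 4 × F) => D.op 0 (U k (D.xG s.1 s.2)) (D.xG s.1 s.2))
    f (a := √(Fintype.card R)) (d := 0) (by positivity) (by positivity) ?_ ?_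
  · have : Tendsto (fun k => ‖f k‖ ^ 2) ω (𝓝 (∑ _r : R, (1 : ℝ) ^ 2)) := by
      simp only [W_norm_sq]
      refine tendsto_finsetSum _ fun r _ => Tendsto.pow ?_ 2
      have := e2 (π (D.τ r) ζ)
      rwa [e1, z1] at this
    simpa using this.sqrt
  · have : (0 : ℝ) = ∑ _s : Fin 4 × F, ∑ _r : R, (0 : ℝ) ^ 2 := by simp
    rw [this]
    refine tendsto_finsetSum _ fun s _ => ?_
    simp only [W_norm_sq]
    refine tendsto_finsetSum _ fun r _ => Tendsto.pow ?_ 2
    set g := D.xG s.1 s.2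
    have a1 := tendsto_disp_lift e2 e3 g (π (D.τ (D.act g⁻¹ r)) ζ) (π (D.τ r) ζ)
    have key : (g : Γ) * D.τ (D.act g⁻¹ r) = D.τ r * ((D.res g⁻¹ r)⁻¹ : D.G) := by
      have := D.spec g⁻¹ r
      simp only [Subgroup.coe_inv] at this ⊢
      rw [eq_mul_inv_iff_mul_eq, mul_assoc, ← this]; group
    rw [← Module.End.mul_apply, ← map_mul, key, map_mul, Module.End.mul_apply, ← map_sub, e1,
      z4] at a1
    exact a1

theorem all_levels {ω : Ultrafilter ℕ} (hω : Tendsto (fun k : ℕ => 1 / ((k : ℝ) + 1)) ω (𝓝 0))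
    (hF : 400 ≤ Fintype.card F)
    {U : ℕ → Γ → H →L[ℂ] H} (hU : AsymRep (E := fun _ => H) ω U) {c : ℝ}
    (hc : (Fintype.card (Fin 4 × F) : ℝ) * Fintype.card R ≤ c)
    (h : Tendsto (fun k => ‖D.comb (U k)‖) ω (𝓝 c)) (δ : ℝ) (hδ : 0 < δ) (hδ1 : δ ≤ 1) :
    ∀ᶠ k in ω, ∀ n, D.Good (U k) n δ := by
  have h1 : ∀ᶠ k in ω, ∀ n, D.Good (U k) n δ → D.Good (U k) (n + 1) δ := by
    by_contra hcon
    rw [← Ultrafilter.eventually_not] at hcon
    have : ∀ k, ∃ n, (¬ ∀ n, D.Good (U k) n δ → D.Good (U k) (n + 1) δ) →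
        D.Good (U k) n δ ∧ ¬ D.Good (U k) (n + 1) δ := by
      intro k
      by_cases hk : ∀ n, D.Good (U k) n δ → D.Good (U k) (n + 1) δ
      · exact ⟨0, fun h => absurd hk h⟩
      · push Not at hk
        obtain ⟨n, hn⟩ := hk
        exact ⟨n, fun _ => hn⟩
    choose n hn using this
    have a1 := reset (D.asymRep_op hU n) hF D.xG_one D.xG_heis
      (hcon.mono fun k hk => by
        obtain ⟨f, f1, f2⟩ := (hn k hk).1
        exact ⟨f, f1, f2.trans hδ1⟩)
    have a2 := D.step hω hU n a1 δ hδ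
    obtain ⟨k, hk1, hk2⟩ := (hcon.and a2).exists
    exact (hn k hk1).2 hk2
  filter_upwards [h1, D.base hω hU hc h δ hδ] with k hk1 hk2 n
  induction n with
  | zero => exact hk2
  | succ n ih => exact hk1 n ih

/-- Disjointness: a genuine representation in which the translations `v m a` act trivially has no
almost invariant vectors after tensoring with `W m`. -/
theorem disjoint (hF : 400 ≤ Fintype.card F) (ρ : D.G →* H →L[ℂ] H) (hρ : ∀ g v, ‖ρ g v‖ = ‖v‖)
    (m : ℕ) (hv : ∀ a, ρ (D.vG m a) = 1) (X : W R m H) :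
    Fintype.card F * ‖X‖ ^ 2 ≤
      disp (fun s : Fin 4 × F => D.op m (ρ (D.xG s.1 s.2)) (D.xG s.1 s.2)) X := by
  let π : D.G →* Module.End ℂ (W R m H) :=
    { toFun := fun g => (D.op m (ρ g) g : W R m H →ₗ[ℂ] W R m H)
      map_one' := by rw [map_one, D.op_one]; rfl
      map_mul' := by intro a b; rw [map_mul, ← D.op_mul]; rfl }
  have hπ : ∀ g v, ‖π g v‖ = ‖v‖ := by
    intro g v
    refine (pow_left_inj₀ (norm_nonneg _) (norm_nonneg _) two_ne_zero).mp ?_
    show ‖D.op m (ρ g) g v‖ ^ 2 = _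
    rw [op_norm_sq, W_norm_sq]; simp only [hρ]
  by_contra hcon
  push Not at hcon
  have hgap := gap_complex hπ hF D.xG_one D.xG_heis X hcon
  choose C hC0 hC using D.disp_control π hπ
  set K := ∑ a : R, C (D.vG m a)⁻¹ with hK
  have hK0 : 0 ≤ K := Finset.sum_nonneg fun _ _ => hC0 _
  obtain ⟨η, h1, h2⟩ := hgap ((1 / (K + 1)) ^ 2) (by positivity)
  have h3 : √(disp (fun s : Fin 4 × F => π (D.xG s.1 s.2)) η) ≤ 1 / (K + 1) :=
    Real.sqrt_le_iff.mpr ⟨by positivity, h2⟩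
  have h4 : ∑ a : R, π (D.vG m a)⁻¹ η = 0 := by
    refine W.ext fun y => ?_
    have := D.sum_sm_v η.zs y
    rw [W.ev_sum]
    refine Eq.trans (Finset.sum_congr rfl fun a _ => ?_) this
    have e : ρ (D.vG m a)⁻¹ = 1 := by
      have := map_mul ρ (D.vG m a) (D.vG m a)⁻¹
      rw [hv, one_mul, mul_inv_cancel, map_one] at this
      exact this.symm
    show (D.op m (ρ (D.vG m a)⁻¹) (D.vG m a)⁻¹ η).ev y = _
    simp [e]
  have h5 : ‖∑ a : R, (π (D.vG m a)⁻¹ η - η)‖ = Fintype.card R := by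
    rw [sum_sub_distrib, h4, zero_sub, norm_neg, sum_const, card_univ,
      ← Nat.cast_smul_eq_nsmul ℂ, norm_smul, h1]
    simp
  have h6 : ‖∑ a : R, (π (D.vG m a)⁻¹ η - η)‖ ≤ K * (1 / (K + 1)) := by
    refine (norm_sum_le _ _).trans ?_
    rw [hK, sum_mul]
    exact Finset.sum_le_sum fun a _ => (hC _ η).trans (by gcongr; exact hC0 _)
  have h7 : (1 : ℝ) ≤ Fintype.card R := by exact_mod_cast Fintype.card_pos
  have h8 : K * (1 / (K + 1)) < 1 := by
    rw [mul_one_div, div_lt_one (by positivity)]; linarith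
  linarith

end Data

end Crest.Agent.R73
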