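import Mathlib
import Crest.Agent.R73.Step
import Crest.Agent.R73.Shift

/-!
The compactness argument: operators with a completely positive approximation cannot have almost
invariant vectors on all levels of the tree.
-/

set_option autoImplicit false

namespace Crest.Agent.R73

open scoped InnerProductSpace TensorProduct Matrix ComplexConjugate
open Finset Filter Topology

theorem haagerup {K : Type} [Fintype K] (l : K → ℝ) (hl : ∀ i, 0 ≤ l i) (hl1 : ∑ i, l i = 1)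
    (G c : K → K → ℂ) (hG : ∀ i j, ‖G i j‖ ^ 2 ≤ l i * l j) {C α : ℝ}
    (hc1 : ∀ j, ∑ i, ‖c i j‖ ^ 2 ≤ C ^ 2) (hc2 : ∀ i, ∑ j, ‖c i j‖ ^ 2 ≤ C ^ 2) (hα : 0 ≤ α)
    (h : α ≤ (∑ i, ∑ j, c i j * G i j).re) :
    α ^ 2 ≤ C ^ 2 * ∑ i, ∑ j, (√(l i))⁻¹ * (√(l j))⁻¹ * ‖G i j‖ ^ 2 := by
  have h1 : α ≤ ∑ p : K × K, ‖c p.1 p.2‖ * ‖G p.1 p.2‖ := by
    refine h.trans ((Complex.re_le_norm _).trans ?_)
    rw [← Fintype.sum_prod_type']
    exact (norm_sum_le _ _).trans (Finset.sum_le_sum fun p _ => (norm_mul _ _).le)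
  have h2 := Finset.sum_sq_le_sum_mul_sum_of_sq_le_mul (univ : Finset (K × K))
    (r := fun p => ‖c p.1 p.2‖ * ‖G p.1 p.2‖)
    (f := fun p => ‖c p.1 p.2‖ ^ 2 * (√(l p.1) * √(l p.2)))
    (g := fun p => (√(l p.1))⁻¹ * (√(l p.2))⁻¹ * ‖G p.1 p.2‖ ^ 2)
    (fun _ _ => by positivity) (fun _ _ => by positivity) (fun p _ => le_of_eq <| by
      by_cases h0 : l p.1 * l p.2 = 0
      · have : ‖G p.1 p.2‖ ^ 2 = 0 := le_antisymm (h0 ▸ hG _ _) (sq_nonneg _)
        simp only [mul_pow, this, mul_zero]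
      · rw [mul_eq_zero, not_or] at h0
        have a1 : √(l p.1) ≠ 0 := by rw [Ne, Real.sqrt_eq_zero (hl _)]; exact h0.1
        have a2 : √(l p.2) ≠ 0 := by rw [Ne, Real.sqrt_eq_zero (hl _)]; exact h0.2
        field_simp)
  have h3 : ∑ p : K × K, ‖c p.1 p.2‖ ^ 2 * (√(l p.1) * √(l p.2)) ≤ C ^ 2 := by
    have b1 : ∑ p : K × K, ‖c p.1 p.2‖ ^ 2 * l p.1 ≤ C ^ 2 := by
      rw [Fintype.sum_prod_type]
      calc _ ≤ ∑ i, C ^ 2 * l i := Finset.sum_le_sum fun i _ => by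
            simp only [← sum_mul]; exact mul_le_mul_of_nonneg_right (hc2 i) (hl i)
        _ = _ := by rw [← mul_sum, hl1, mul_one]
    have b2 : ∑ p : K × K, ‖c p.1 p.2‖ ^ 2 * l p.2 ≤ C ^ 2 := by
      rw [Fintype.sum_prod_type_right]
      calc _ ≤ ∑ i, C ^ 2 * l i := Finset.sum_le_sum fun i _ => by
            simp only [← sum_mul]; exact mul_le_mul_of_nonneg_right (hc1 i) (hl i)
        _ = _ := by rw [← mul_sum, hl1, mul_one]
    have b3 : ∑ p : K × K, ‖c p.1 p.2‖ ^ 2 * (√(l p.1) * √(l p.2)) ≤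
        ∑ p : K × K, (‖c p.1 p.2‖ ^ 2 * l p.1 + ‖c p.1 p.2‖ ^ 2 * l p.2) / 2 := by
      refine Finset.sum_le_sum fun p _ => ?_
      have a1 := Real.mul_self_sqrt (hl p.1)
      have a2 := Real.mul_self_sqrt (hl p.2)
      have a3 : √(l p.1) * √(l p.2) ≤ (l p.1 + l p.2) / 2 := by
        nlinarith [sq_nonneg (√(l p.1) - √(l p.2))]
      nlinarith [sq_nonneg ‖c p.1 p.2‖]
    rw [← sum_div, sum_add_distrib] at b3
    linarith
  rw [← Fintype.sum_prod_type']
  calc α ^ 2 ≤ _ := by gcongr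
    _ ≤ _ := h2
    _ ≤ _ := mul_le_mul_of_nonneg_right h3 (Finset.sum_nonneg fun _ _ => by positivity)

namespace Data

variable {Γ : Type} [Group Γ] {F : Type} [Field F] {R : Type} [AddCommGroup R] (D : Data Γ F R)
  [Fintype R]

/-- matrix coefficients of a family of vectors -/
noncomputable def Gr {H : Type} [NormedAddCommGroup H] [InnerProductSpace ℂ H] {K : Type} {n : ℕ}
    (ζ : K → W R n H) (g : D.G) : Matrix K K ℂ :=
  Matrix.of fun μ ν => ⟪ζ μ, D.op n 1 g (ζ ν)⟫_ℂ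

theorem norm_op_one {H : Type} [NormedAddCommGroup H] [InnerProductSpace ℂ H] (n : ℕ) (g : D.G)
    (f : W R n H) : ‖D.op n 1 g f‖ = ‖f‖ := by
  refine (pow_left_inj₀ (norm_nonneg _) (norm_nonneg _) two_ne_zero).mp ?_
  rw [op_norm_sq, W_norm_sq]; rfl

/-- the genuine representation on one level -/
noncomputable def levelRep (n : ℕ) (H : Type) [NormedAddCommGroup H] [InnerProductSpace ℂ H] :
    D.G →* W R n H →L[ℂ] W R n H where
  toFun g := D.op n 1 g
  map_one' := D.op_one n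
  map_mul' g h := by rw [D.op_mul, one_mul]

/-- tensoring with the conjugate of a fixed function -/
noncomputable def tens {Ω : Type} {n : ℕ} (ζ : W R n (L2 Ω)) : L2 Ω →+ W R n (L2 Ω ⊗[ℂ] L2 Ω) where
  toFun h := W.mk (fun y => h ⊗ₜ star (ζ.ev y))
    (ZS.map (AddMonoidHom.mk' (fun v : L2 Ω => (h ⊗ₜ star v : L2 Ω ⊗[ℂ] L2 Ω))
      fun _ _ => by rw [star_add, TensorProduct.tmul_add]) ζ.zs)
  map_zero' := W.ext fun y => by simp
  map_add' h h' := W.ext fun y => by simp [TensorProduct.add_tmul]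

theorem star_ineq [Fintype F] (hF : 400 ≤ Fintype.card F) {Ω K : Type} [Fintype K] {m n : ℕ}
    (hnm : n < m) (ζ : K → W R m (L2 Ω)) (ζ' : K → W R n (L2 Ω)) (c : K → ℝ) :
    ∑ s : Fin 4 × F, (∑ μ, ∑ ν, ((c μ * c ν : ℝ) : ℂ) * (D.Gr ζ (D.xG s.1 s.2) μ ν *
        conj (D.Gr ζ' (D.xG s.1 s.2) μ ν))).re ≤
      (7 / 2) * Fintype.card F *
        (∑ μ, ∑ ν, ((c μ * c ν : ℝ) : ℂ) * (D.Gr ζ 1 μ ν * conj (D.Gr ζ' 1 μ ν))).re := by
  let X : W R m (W R n (L2 Ω ⊗[ℂ] L2 Ω)) :=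
    W.mk (fun y => ∑ μ, (c μ : ℂ) • tens (ζ' μ) ((ζ μ).ev y))
      (ZS.sum _ _ fun μ _ => ZS.map
        ((DistribSMul.toAddMonoidHom _ (c μ : ℂ)).comp (tens (ζ' μ))) (ζ μ).zs)
  have h1 := D.disjoint hF (D.levelRep n _) (D.norm_op_one n) m (fun a => by
    ext1 f
    refine W.ext fun y => ?_
    have : D.sm n (D.vG m a)⁻¹ y = y := by
      conv_lhs => rw [← D.sm_v_lt n m hnm a y]
      rw [← D.sm_mul, inv_mul_cancel, D.sm_one]
    simp [levelRep, this]) X
  have h2 : ∀ g : D.G, ⟪X, D.op m (D.levelRep n _ g) g X⟫_ℂ =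
      ∑ μ, ∑ ν, ((c μ * c ν : ℝ) : ℂ) * (D.Gr ζ g μ ν * conj (D.Gr ζ' g μ ν)) := by
    intro g
    have e : ∀ (μ ν : K) (h h' : L2 Ω), ⟪tens (ζ' μ) h, D.levelRep n _ g (tens (ζ' ν) h')⟫_ℂ =
        ⟪h, h'⟫_ℂ * conj (D.Gr ζ' g μ ν) := by
      intro μ ν h h'
      simp only [Gr, Matrix.of_apply, W_inner, map_sum, mul_sum]
      refine Finset.sum_congr rfl fun y _ => ?_
      simp [tens, levelRep, inner_star_star]
    rw [W_inner]
    simp only [X, op_apply, W.mk_apply, map_sum, map_smul, sum_inner, inner_sum, inner_smul_left,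
      inner_smul_right, e, mul_sum]
    rw [sum_comm]
    refine (Finset.sum_congr rfl fun ν _ => sum_comm).trans ?_
    rw [sum_comm]
    refine Finset.sum_congr rfl fun μ _ => Finset.sum_congr rfl fun ν _ => ?_
    simp only [Gr, Matrix.of_apply, W_inner (ζ μ), sum_mul, mul_sum]
    refine Finset.sum_congr rfl fun y _ => ?_
    simp; ring
  have h3 : ∀ g : D.G, ‖D.op m (D.levelRep n _ g) g X‖ = ‖X‖ := by
    intro g
    refine (pow_left_inj₀ (norm_nonneg _) (norm_nonneg _) two_ne_zero).mp ?_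
    rw [op_norm_sq, W_norm_sq]
    exact Finset.sum_congr rfl fun y _ => by rw [show D.levelRep n _ g = D.op n 1 g from rfl,
      D.norm_op_one]
  have h4 : (∑ μ, ∑ ν, ((c μ * c ν : ℝ) : ℂ) * (D.Gr ζ 1 μ ν * conj (D.Gr ζ' 1 μ ν))).re
      = ‖X‖ ^ 2 := by
    rw [← h2, map_one, D.op_one]
    exact inner_self_eq_norm_sq (𝕜 := ℂ) X
  simp only [← h2]
  rw [← h2] at h4
  rw [h4]
  simp only [disp, norm_sub_rev _ X, @norm_sub_sq ℂ, h3, sum_add_distrib, sum_sub_distrib,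
    sum_const, card_univ, Fintype.card_prod, Fintype.card_fin, nsmul_eq_mul, ← mul_sum,
    RCLike.re_to_complex] at h1
  push_cast at h1
  linarith

theorem Gr_rot {H : Type} [NormedAddCommGroup H] [InnerProductSpace ℂ H] {K : Type} [Fintype K]
    {n : ℕ} (ζ : K → W R n H) (g : D.G) (U : Matrix K K ℂ) :
    D.Gr (fun i => ∑ μ, U μ i • ζ μ) g = Uᴴ * D.Gr ζ g * U := by
  ext i j
  simp only [Gr, Matrix.of_apply, map_sum, map_smul, sum_inner, inner_sum, inner_smul_left,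
    inner_smul_right, Matrix.mul_apply, Matrix.conjTranspose_apply, sum_mul, mul_sum]
  refine Finset.sum_congr rfl fun ν _ => Finset.sum_congr rfl fun μ _ => ?_
  simp; ring

theorem Gr_sq_le {H : Type} [NormedAddCommGroup H] [InnerProductSpace ℂ H] {K : Type}
    {n : ℕ} (ζ : K → W R n H) (g : D.G) (i j : K) :
    ‖D.Gr ζ g i j‖ ^ 2 ≤ (D.Gr ζ 1 i i).re * (D.Gr ζ 1 j j).re := by
  have e : ∀ i, (D.Gr ζ 1 i i).re = ‖ζ i‖ ^ 2 := fun i => by
    simp only [Gr, Matrix.of_apply, D.op_one]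
    exact inner_self_eq_norm_sq (𝕜 := ℂ) (ζ i)
  rw [e, e, ← mul_pow]
  gcongr
  exact (norm_inner_le_norm (ζ i) (D.op n 1 g (ζ j))).trans (by rw [D.norm_op_one])

theorem no_all_levels [Fintype F] (hF : 400 ≤ Fintype.card F) {Ω K : Type} [Fintype K]
    (U : Γ → L2 Ω →L[ℂ] L2 Ω) (hU : ∀ i a, ‖U (D.x i a)‖ ≤ 101 / 100)
    (e : K → L2 Ω) (he : Orthonormal ℂ e) (r : K → L2 Ω →L[ℂ] L2 Ω)
    (hr : ∑ μ, r μ * star (r μ) = 1)
    (happ : ∀ i a, ‖Theta e r (U (D.x i a)) - U (D.x i a)‖ ≤ 1 / 100)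
    (hgood : ∀ n, D.Good U n ((1 / 100) ^ 2)) : False := by
  classical
  choose f hf1 hf2 using hgood
  let ζ : ∀ n, K → W R n (L2 Ω) := fun n μ => D.op n (star (r μ)) 1 (f n)
  have hin : ∀ n (g : D.G) (μ ν : K),
      D.Gr (ζ n) g μ ν = ⟪f n, D.op n (r μ * star (r ν)) g (f n)⟫_ℂ := by
    intro n g μ ν
    simp only [Gr, Matrix.of_apply, W_inner, ζ]
    refine Finset.sum_congr rfl fun y _ => ?_
    simp [D.sm_one, ContinuousLinearMap.star_eq_adjoint, ContinuousLinearMap.adjoint_inner_left]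
  have hsum : ∀ n (g : D.G) (b : K → K → ℂ), ∑ μ, ∑ ν, b μ ν * D.Gr (ζ n) g μ ν =
      ⟪f n, D.op n (∑ μ, ∑ ν, b μ ν • (r μ * star (r ν))) g (f n)⟫_ℂ := by
    intro n g b
    simp only [hin, W_inner, op_apply, mul_sum, _root_.sum_apply, inner_sum,
      _root_.smul_apply, inner_smul_right]
    symm
    rw [sum_comm]
    exact Finset.sum_congr rfl fun μ _ => sum_comm
  have htr : ∀ n, ∑ μ, D.Gr (ζ n) 1 μ μ = 1 := by
    intro n
    have := hsum n 1 fun μ ν => if μ = ν then 1 else 0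
    simp only [ite_mul, one_mul, zero_mul, sum_ite_eq, mem_univ, if_true, ite_smul, one_smul,
      zero_smul, hr, D.op_one] at this
    rw [this]
    simp [inner_self_eq_norm_sq_to_K, hf1]
  have hlow : ∀ n (s : Fin 4 × F), 98 / 100 ≤
      (∑ μ, ∑ ν, ⟪e μ, U (D.x s.1 s.2) (e ν)⟫_ℂ * D.Gr (ζ n) (D.xG s.1 s.2) μ ν).re := by
    intro n s
    rw [hsum]
    set g := D.xG s.1 s.2
    have a1 : ‖D.op n (U g) g (f n) - f n‖ ≤ 1 / 100 :=
      (le_sqrt_disp (fun s : Fin 4 × F => D.op n (U (D.xG s.1 s.2)) (D.xG s.1 s.2)) (f n) s).trans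
        (Real.sqrt_le_iff.mpr ⟨by norm_num, hf2 n⟩)
    have a2 : ‖D.op n (Theta e r (U g)) g (f n) - D.op n (U g) g (f n)‖ ≤ 1 / 100 := by
      rw [← _root_.sub_apply, D.op_sub]
      refine (D.opL_norm_le _ _ _ _).trans ?_
      rw [hf1, mul_one]; exact happ _ _
    have a3 : ‖D.op n (Theta e r (U g)) g (f n) - f n‖ ≤ 2 / 100 :=
      (norm_sub_le_norm_sub_add_norm_sub _ (D.op n (U g) g (f n)) _).trans (by linarith)
    have a4 := re_inner_le_norm (𝕜 := ℂ) (f n) (f n - D.op n (Theta e r (U g)) g (f n))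
    rw [inner_sub_right, map_sub, inner_self_eq_norm_sq, hf1, norm_sub_rev] at a4
    show _ ≤ RCLike.re ⟪f n, D.op n (Theta e r (U g)) g (f n)⟫_ℂ
    linarith
  have hbd : ∀ (g : D.G) μ ν, ∃ z, Tendsto (fun n => D.Gr (ζ n) g μ ν) (hyperfilter ℕ) (𝓝 z) := by
    intro g μ ν
    refine exists_ulim _ _ (‖r μ * star (r ν)‖) fun n => ?_
    rw [hin]
    refine (norm_inner_le_norm _ _).trans ?_
    rw [hf1, one_mul]
    refine (D.opL_norm_le _ _ _ _).trans ?_
    rw [hf1, mul_one]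
  choose G₀ hG₀ using hbd
  let G : D.G → Matrix K K ℂ := fun g => Matrix.of (G₀ g)
  have hG : ∀ g, Tendsto (fun n => D.Gr (ζ n) g) (hyperfilter ℕ) (𝓝 (G g)) := fun g =>
    tendsto_pi_nhds.mpr fun μ => tendsto_pi_nhds.mpr fun ν => hG₀ g μ ν
  have hH : (G 1).IsHermitian := by
    ext μ ν
    refine tendsto_nhds_unique ((Complex.continuous_conj.tendsto _).comp (hG₀ 1 ν μ)) ?_
    refine (hG₀ 1 μ ν).congr fun n => ?_
    simp [Gr, D.op_one]
  let V : Matrix K K ℂ := hH.eigenvectorUnitary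
  have hV1 : Vᴴ * V = 1 := hH.eigenvectorUnitary.2.1
  have hV2 : V * Vᴴ = 1 := hH.eigenvectorUnitary.2.2
  let l : K → ℝ := hH.eigenvalues
  have hdiag : Vᴴ * G 1 * V = Matrix.diagonal fun i => (l i : ℂ) := by
    have := hH.conjStarAlgAut_star_eigenvectorUnitary
    simp only [Unitary.conjStarAlgAut_star_apply] at this
    exact this
  let ζ' : ∀ n, K → W R n (L2 Ω) := fun n i => ∑ μ, V μ i • ζ n μ
  let G' : D.G → Matrix K K ℂ := fun g => Vᴴ * G g * V
  have hG' : ∀ g i j, Tendsto (fun n => D.Gr (ζ' n) g i j) (hyperfilter ℕ) (𝓝 (G' g i j)) := by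
    intro g i j
    have : Tendsto (fun n => D.Gr (ζ' n) g) (hyperfilter ℕ) (𝓝 (G' g)) := by
      simp only [ζ', D.Gr_rot]
      exact ((hG g).const_mul _).mul_const _
    exact tendsto_pi_nhds.mp (tendsto_pi_nhds.mp this i) j
  have hG1 : ∀ i j, G' 1 i j = if i = j then (l i : ℂ) else 0 := by
    intro i j; simp only [G', hdiag, Matrix.diagonal_apply]
  have hre : ∀ i, Tendsto (fun n => (D.Gr (ζ' n) 1 i i).re) (hyperfilter ℕ) (𝓝 (l i)) := by
    intro i
    have := (Complex.continuous_re.tendsto _).comp (hG' 1 i i)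
    rwa [hG1, if_pos rfl, Complex.ofReal_re] at this
  have hsq : ∀ g i j, ‖G' g i j‖ ^ 2 ≤ l i * l j := fun g i j =>
    le_of_tendsto_of_tendsto' ((hG' g i j).norm.pow 2) ((hre i).mul (hre j)) fun n =>
      D.Gr_sq_le _ _ _ _
  have hl0 : ∀ i, 0 ≤ l i := fun i => ge_of_tendsto' (hre i) fun n => by
    simp only [Gr, Matrix.of_apply, D.op_one]
    exact inner_self_nonneg (𝕜 := ℂ)
  have hl1 : ∑ i, l i = 1 := by
    have a1 : (G 1).trace = 1 := by
      refine tendsto_nhds_unique (tendsto_finsetSum _ fun μ _ => hG₀ 1 μ μ) ?_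
      simp only [htr]; exact tendsto_const_nhds
    have a2 := congrArg Matrix.trace hdiag
    rw [Matrix.trace_mul_cycle, hV2, one_mul, a1, Matrix.trace_diagonal] at a2
    exact_mod_cast a2.symm
  let c : K → ℝ := fun i => (√(l i))⁻¹
  have hstar : ∑ s : Fin 4 × F, (∑ μ, ∑ ν, ((c μ * c ν : ℝ) : ℂ) * (G' (D.xG s.1 s.2) μ ν *
        conj (G' (D.xG s.1 s.2) μ ν))).re ≤ (7 / 2) * Fintype.card F *
        (∑ μ, ∑ ν, ((c μ * c ν : ℝ) : ℂ) * (G' 1 μ ν * conj (G' 1 μ ν))).re := by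
    have a1 : ∀ n, ∑ s : Fin 4 × F, (∑ μ, ∑ ν, ((c μ * c ν : ℝ) : ℂ) * (G' (D.xG s.1 s.2) μ ν *
        conj (D.Gr (ζ' n) (D.xG s.1 s.2) μ ν))).re ≤ (7 / 2) * Fintype.card F *
        (∑ μ, ∑ ν, ((c μ * c ν : ℝ) : ℂ) * (G' 1 μ ν * conj (D.Gr (ζ' n) 1 μ ν))).re := by
      intro n
      refine le_of_tendsto_of_tendsto (b := (hyperfilter ℕ : Filter ℕ))
        (tendsto_finsetSum _ fun s _ => (Complex.continuous_re.tendsto _).comp
          (tendsto_finsetSum _ fun μ _ => tendsto_finsetSum _ fun ν _ =>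
            ((hG' _ μ ν).mul_const _).const_mul _))
        (((Complex.continuous_re.tendsto _).comp
          (tendsto_finsetSum _ fun μ _ => tendsto_finsetSum _ fun ν _ =>
            ((hG' _ μ ν).mul_const _).const_mul _)).const_mul _) ?_
      have : ∀ᶠ m in (hyperfilter ℕ : Filter ℕ), n < m :=
        (Nat.hyperfilter_le_atTop) (eventually_gt_atTop n)
      filter_upwards [this] with m hm
      exact D.star_ineq hF hm (ζ' m) (ζ' n) c
    exact le_of_tendsto_of_tendsto' (b := (hyperfilter ℕ : Filter ℕ))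
      (tendsto_finsetSum _ fun s _ => (Complex.continuous_re.tendsto _).comp
        (tendsto_finsetSum _ fun μ _ => tendsto_finsetSum _ fun ν _ =>
          (((Complex.continuous_conj.tendsto _).comp (hG' _ μ ν)).const_mul _).const_mul _))
      (((Complex.continuous_re.tendsto _).comp
        (tendsto_finsetSum _ fun μ _ => tendsto_finsetSum _ fun ν _ =>
          (((Complex.continuous_conj.tendsto _).comp (hG' _ μ ν)).const_mul _).const_mul _)).const_mul _)
      a1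
  have hform : ∀ g, (∑ μ, ∑ ν, ((c μ * c ν : ℝ) : ℂ) * (G' g μ ν * conj (G' g μ ν))).re =
      ∑ μ, ∑ ν, c μ * c ν * ‖G' g μ ν‖ ^ 2 := by
    intro g
    simp only [Complex.mul_conj', ← Complex.ofReal_pow, ← Complex.ofReal_mul, ← Complex.ofReal_sum,
      Complex.ofReal_re]
  simp only [hform] at hstar
  have hone : ∑ μ, ∑ ν, c μ * c ν * ‖G' 1 μ ν‖ ^ 2 = 1 := by
    rw [← hl1]
    refine Finset.sum_congr rfl fun μ _ => ?_
    rw [Finset.sum_eq_single μ (fun ν _ hν => by simp [hG1, hν.symm]) (by simp), hG1, if_pos rfl,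
      Complex.norm_real, Real.norm_of_nonneg (hl0 μ), ← mul_inv, Real.mul_self_sqrt (hl0 μ)]
    rcases (hl0 μ).eq_or_lt with h | h
    · simp [← h]
    · field_simp
  rw [hone, mul_one] at hstar
  let h : K → L2 Ω := fun i => ∑ μ, conj (V μ i) • e μ
  have hh : Orthonormal ℂ h := by
    rw [orthonormal_iff_ite]
    intro i j
    have := congrFun (congrFun hV1 j) i
    simp only [Matrix.mul_apply, Matrix.conjTranspose_apply, Matrix.one_apply] at this
    simp only [h]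
    rw [he.inner_sum, if_congr eq_comm rfl rfl, ← this]
    simp [mul_comm]
  have hmain : ∀ s : Fin 4 × F, (98 / 100 : ℝ) ^ 2 ≤
      (101 / 100) ^ 2 * ∑ μ, ∑ ν, c μ * c ν * ‖G' (D.xG s.1 s.2) μ ν‖ ^ 2 := by
    intro s
    set a := U (D.x s.1 s.2) with ha
    refine haagerup l hl0 hl1 _ (fun i j => ⟪h i, a (h j)⟫_ℂ) (hsq _) ?_ ?_ (by norm_num) ?_
    · intro j
      refine (hh.sum_inner_products_le _).trans ?_
      gcongr
      refine (a.le_opNorm _).trans ?_
      rw [hh.1, mul_one]; exact hU _ _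
    · intro i
      simp only [← ContinuousLinearMap.adjoint_inner_left a, norm_inner_symm]
      refine (hh.sum_inner_products_le _).trans ?_
      gcongr
      refine (ContinuousLinearMap.le_opNorm _ _).trans ?_
      rw [hh.1, mul_one, LinearIsometryEquiv.norm_map]; exact hU _ _
    · have a1 : 98 / 100 ≤ (∑ μ, ∑ ν, ⟪e μ, a (e ν)⟫_ℂ * G (D.xG s.1 s.2) μ ν).re :=
        ge_of_tendsto' ((Complex.continuous_re.tendsto _).comp
          (tendsto_finsetSum _ fun μ _ => tendsto_finsetSum _ fun ν _ =>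
            (hG₀ _ μ ν).const_mul _)) fun n => hlow n s
      have a2 : G (D.xG s.1 s.2) = V * G' (D.xG s.1 s.2) * Vᴴ := by
        simp only [G', ← mul_assoc, hV2, one_mul]
        rw [mul_assoc, hV2, mul_one]
      rw [a2] at a1
      refine a1.trans (le_of_eq (congrArg Complex.re ?_))
      simp only [h, Matrix.mul_apply, Matrix.conjTranspose_apply, map_sum, map_smul, sum_inner,
        inner_sum, inner_smul_left, inner_smul_right, sum_mul, mul_sum]
      symm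
      rw [sum_comm]
      refine (Finset.sum_congr rfl fun j _ => sum_comm).trans ?_
      rw [sum_comm]
      refine (Finset.sum_congr rfl fun ν _ => Finset.sum_congr rfl fun j _ => sum_comm).trans ?_
      refine (Finset.sum_congr rfl fun ν _ => sum_comm).trans ?_
      rw [sum_comm]
      refine Finset.sum_congr rfl fun μ _ => Finset.sum_congr rfl fun ν _ =>
        Finset.sum_congr rfl fun j _ => Finset.sum_congr rfl fun i _ => ?_
      simp; ring
  have := Finset.sum_le_sum fun s (_ : s ∈ (univ : Finset (Fin 4 × F))) => hmain s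
  rw [← mul_sum, sum_const, card_univ, Fintype.card_prod, Fintype.card_fin, nsmul_eq_mul] at this
  push_cast at this
  have hq : (400 : ℝ) ≤ Fintype.card F := by exact_mod_cast hF
  nlinarith

end Data

end Crest.Agent.R73
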