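import Mathlib
import Crest.Agent.R73.Tree

/-!
A concrete countable group carrying the data `Data`: affine matrices over Laurent polynomials.
-/

set_option autoImplicit false

namespace Crest.Agent.R73

section Mat

variable {K : Type} [CommRing K]

/-- affine `4 × 4` matrices -/
def mk4 (a b c d e f g h i j k l : K) : Matrix (Fin 4) (Fin 4) K :=
  !![a, b, c, d; e, f, g, h; i, j, k, l; 0, 0, 0, 1]

theorem mk4_mul (a b c d e f g h i j k l a' b' c' d' e' f' g' h' i' j' k' l' : K) :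
    mk4 a b c d e f g h i j k l * mk4 a' b' c' d' e' f' g' h' i' j' k' l' =
      mk4 (a * a' + b * e' + c * i') (a * b' + b * f' + c * j') (a * c' + b * g' + c * k')
        (a * d' + b * h' + c * l' + d)
        (e * a' + f * e' + g * i') (e * b' + f * f' + g * j') (e * c' + f * g' + g * k')
        (e * d' + f * h' + g * l' + h)
        (i * a' + j * e' + k * i') (i * b' + j * f' + k * j') (i * c' + j * g' + k * k')
        (i * d' + j * h' + k * l' + l) := by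
  ext p q
  fin_cases p <;> fin_cases q <;> simp [mk4, Matrix.mul_apply, Fin.sum_univ_four]

theorem mk4_one : (1 : Matrix (Fin 4) (Fin 4) K) = mk4 1 0 0 0 0 1 0 0 0 0 1 0 := by
  ext p q
  fin_cases p <;> fin_cases q <;> simp [mk4]

theorem mk4_mem (P : Subring K) {a b c d e f g h i j k l : K} (ha : a ∈ P) (hb : b ∈ P) (hc : c ∈ P)
    (hd : d ∈ P) (he : e ∈ P) (hf : f ∈ P) (hg : g ∈ P) (hh : h ∈ P) (hi : i ∈ P) (hj : j ∈ P)
    (hk : k ∈ P) (hl : l ∈ P) (p q : Fin 4) : mk4 a b c d e f g h i j k l p q ∈ P := by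
  fin_cases p <;> fin_cases q <;> simp [mk4, *]

/-- the group -/
abbrev GL4 (K : Type) [CommRing K] := (Matrix (Fin 4) (Fin 4) K)ˣ

macro "mk4tac" : tactic =>
  `(tactic| (simp only [mk4_mul, mk4_one]; congr 1 <;> ring))

/-- elementary matrices of the linear part; the six off-diagonal entries, used one at a time -/
def e01 (c : K) : GL4 K :=
  ⟨mk4 1 c 0 0 0 1 0 0 0 0 1 0, mk4 1 (-c) 0 0 0 1 0 0 0 0 1 0, by mk4tac, by mk4tac⟩
/-- elementary matrix -/
def e02 (c : K) : GL4 K :=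
  ⟨mk4 1 0 c 0 0 1 0 0 0 0 1 0, mk4 1 0 (-c) 0 0 1 0 0 0 0 1 0, by mk4tac, by mk4tac⟩
/-- elementary matrix -/
def e12 (c : K) : GL4 K :=
  ⟨mk4 1 0 0 0 0 1 c 0 0 0 1 0, mk4 1 0 0 0 0 1 (-c) 0 0 0 1 0, by mk4tac, by mk4tac⟩
/-- elementary matrix -/
def e10 (c : K) : GL4 K :=
  ⟨mk4 1 0 0 0 c 1 0 0 0 0 1 0, mk4 1 0 0 0 (-c) 1 0 0 0 0 1 0, by mk4tac, by mk4tac⟩
/-- elementary matrix -/
def e20 (c : K) : GL4 K :=
  ⟨mk4 1 0 0 0 0 1 0 0 c 0 1 0, mk4 1 0 0 0 0 1 0 0 (-c) 0 1 0, by mk4tac, by mk4tac⟩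
/-- elementary matrix -/
def e21 (c : K) : GL4 K :=
  ⟨mk4 1 0 0 0 0 1 0 0 0 c 1 0, mk4 1 0 0 0 0 1 0 0 0 (-c) 1 0, by mk4tac, by mk4tac⟩
/-- translation -/
def tr (u v w : K) : GL4 K :=
  ⟨mk4 1 0 0 u 0 1 0 v 0 0 1 w, mk4 1 0 0 (-u) 0 1 0 (-v) 0 0 1 (-w), by mk4tac, by mk4tac⟩
/-- dilation followed by translation -/
def dil (t : Kˣ) (u v w : K) : GL4 K :=
  ⟨mk4 t 0 0 u 0 t 0 v 0 0 t w,
    mk4 (t⁻¹ : Kˣ) 0 0 (-(t⁻¹ : Kˣ) * u) 0 (t⁻¹ : Kˣ) 0 (-(t⁻¹ : Kˣ) * v) 0 0 (t⁻¹ : Kˣ)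
      (-(t⁻¹ : Kˣ) * w),
    by simp only [mk4_mul, mk4_one]; congr 1 <;> simp,
    by simp only [mk4_mul, mk4_one]; congr 1 <;> simp⟩

macro "gl4tac" : tactic =>
  `(tactic| (apply Units.ext
             simp only [Units.val_mul, Units.val_one, e01, e02, e12, e10, e20, e21, tr, dil, mk4_mul,
               mk4_one, map_add, map_mul, map_neg, map_zero, map_one, Pi.add_apply, Pi.zero_apply,
               Matrix.cons_val_zero, Matrix.cons_val_one, Matrix.cons_val]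
             congr 1 <;> ring))

variable {F : Type} [Field F] (ι : F →+* K) (t : Kˣ)

/-- the four one-parameter subgroups -/
def xs : Fin 4 → F → GL4 K :=
  ![fun a => e01 (ι a), fun a => e12 (ι a), fun a => e20 (t * ι a), fun a => tr 0 0 (ι a)]

theorem xs0 (a : F) : xs ι t 0 a = e01 (ι a) := rfl
theorem xs1 (a : F) : xs ι t 1 a = e12 (ι a) := rfl
theorem xs2 (a : F) : xs ι t 2 a = e20 (t * ι a) := rfl
theorem xs3 (a : F) : xs ι t 3 a = tr 0 0 (ι a) := rfl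

theorem xs_mem (i : Fin 4) (a : F) : xs ι t i a ∈ genG (xs ι t) :=
  Subgroup.subset_closure ⟨(i, a), rfl⟩

theorem fin4_cases {p : Fin 4 → Prop} (h0 : p 0) (h1 : p 1) (h2 : p 2) (h3 : p 3) (i : Fin 4) :
    p i := by
  fin_cases i <;> assumption

theorem xs_one (i : Fin 4) : OneParam (xs ι t i) := by
  intro a b
  induction i using fin4_cases <;> simp only [xs0, xs1, xs2, xs3] <;> gl4tac

theorem xs_heis (i j : Fin 4) (h : i < j) : Heis (xs ι t i) (xs ι t j) := by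
  have h01 : Heis (xs ι t 0) (xs ι t 1) := by
    refine ⟨fun c => e02 (ι c), ?_, ?_, ?_, ?_⟩ <;> intro a b <;> simp only [xs0, xs1] <;> gl4tac
  have h02 : Heis (xs ι t 0) (xs ι t 2) := by
    refine ⟨fun c => e21 (-(t * ι c)), ?_, ?_, ?_, ?_⟩ <;> intro a b <;> simp only [xs0, xs2] <;>
      gl4tac
  have h03 : Heis (xs ι t 0) (xs ι t 3) := by
    refine ⟨fun _ => 1, ?_, ?_, ?_, ?_⟩ <;> intro a b <;> simp only [xs0, xs3, mul_one, one_mul]
    gl4tac
  have h12 : Heis (xs ι t 1) (xs ι t 2) := by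
    refine ⟨fun c => e10 (t * ι c), ?_, ?_, ?_, ?_⟩ <;> intro a b <;> simp only [xs1, xs2] <;>
      gl4tac
  have h13 : Heis (xs ι t 1) (xs ι t 3) := by
    refine ⟨fun c => tr 0 (ι c) 0, ?_, ?_, ?_, ?_⟩ <;> intro a b <;> simp only [xs1, xs3] <;> gl4tac
  have h23 : Heis (xs ι t 2) (xs ι t 3) := by
    refine ⟨fun _ => 1, ?_, ?_, ?_, ?_⟩ <;> intro a b <;> simp only [xs2, xs3, mul_one, one_mul]
    gl4tac
  revert h
  induction i using fin4_cases <;> induction j using fin4_cases <;> intro h <;>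
    first | assumption | exact absurd h (by decide)

theorem tr_mem2 (c : K) (h : tr 0 0 c ∈ genG (xs ι t)) : tr 0 c 0 ∈ genG (xs ι t) := by
  have : tr 0 c 0 = xs ι t 1 1 * tr 0 0 c * xs ι t 1 (-1) * (tr 0 0 c)⁻¹ := by
    rw [eq_mul_inv_iff_mul_eq]; simp only [xs1]; gl4tac
  rw [this]
  exact mul_mem (mul_mem (mul_mem (xs_mem ι t _ _) h) (xs_mem ι t _ _)) (inv_mem h)

theorem tr_mem1 (c : K) (h : tr 0 c 0 ∈ genG (xs ι t)) : tr c 0 0 ∈ genG (xs ι t) := by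
  have : tr c 0 0 = xs ι t 0 1 * tr 0 c 0 * xs ι t 0 (-1) * (tr 0 c 0)⁻¹ := by
    rw [eq_mul_inv_iff_mul_eq]; simp only [xs0]; gl4tac
  rw [this]
  exact mul_mem (mul_mem (mul_mem (xs_mem ι t _ _) h) (xs_mem ι t _ _)) (inv_mem h)

theorem tr_mem0 (c : K) (h : tr c 0 0 ∈ genG (xs ι t)) : tr 0 0 (t * c) ∈ genG (xs ι t) := by
  have : tr 0 0 (t * c) = xs ι t 2 1 * tr c 0 0 * xs ι t 2 (-1) * (tr c 0 0)⁻¹ := by
    rw [eq_mul_inv_iff_mul_eq]; simp only [xs2]; gl4tac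
  rw [this]
  exact mul_mem (mul_mem (mul_mem (xs_mem ι t _ _) h) (xs_mem ι t _ _)) (inv_mem h)

theorem tr_pow_mem (n : ℕ) (a : F) : tr 0 0 ((t : K) ^ n * ι a) ∈ genG (xs ι t) := by
  induction n with
  | zero => simpa [xs3] using xs_mem ι t 3 a
  | succ n ih =>
    have := tr_mem0 ι t _ (tr_mem1 ι t _ (tr_mem2 ι t _ ih))
    rwa [← mul_assoc, ← pow_succ'] at this

theorem entries_mem (P : Subring K) (ht : (t : K) ∈ P) (hι : ∀ c, ι c ∈ P) (g : GL4 K)
    (hg : g ∈ genG (xs ι t)) : ∀ p q, (g : Matrix (Fin 4) (Fin 4) K) p q ∈ P := by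
  have hgen : ∀ i a p q, (xs ι t i a : Matrix (Fin 4) (Fin 4) K) p q ∈ P := by
    intro i a
    have h0 := P.zero_mem
    have h1 := P.one_mem
    have h2 := hι a
    have h3 := P.mul_mem ht h2
    induction i using fin4_cases <;> exact mk4_mem P ‹_› ‹_› ‹_› ‹_› ‹_› ‹_› ‹_› ‹_› ‹_› ‹_› ‹_› ‹_›
  induction hg using Subgroup.closure_induction'' with
  | mem x hx => obtain ⟨⟨i, a⟩, rfl⟩ := hx; exact hgen i a
  | inv_mem x hx =>
    obtain ⟨⟨i, a⟩, rfl⟩ := hx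
    have := hgen i (-a)
    rwa [(xs_one ι t i).neg] at this
  | one =>
    intro p q
    rw [Units.val_one, Matrix.one_apply]; split_ifs
    exacts [P.one_mem, P.zero_mem]
  | mul x y _ _ h1 h2 =>
    intro p q
    rw [Units.val_mul, Matrix.mul_apply]
    exact P.sum_mem fun k _ => P.mul_mem (h1 _ _) (h2 _ _)

/-- The data, over any ring with a suitable unit. -/
def mkData (P : Subring K) (ht : (t : K) ∈ P) (hι : ∀ c, ι c ∈ P)
    (hP : ∀ c, ((t⁻¹ : Kˣ) : K) * ι c ∈ P → c = 0) : Data (GL4 K) F (Fin 3 → F) where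
  x := xs ι t
  x_one := xs_one ι t
  heis := xs_heis ι t
  τ r := dil t (ι (r 0)) (ι (r 1)) (ι (r 2))
  ex i a r := by
    induction i using fin4_cases
    · refine ⟨![r 0 + a * r 1, r 1, r 2], _, xs_mem ι t 0 a, ?_⟩
      simp only [xs0]; gl4tac
    · refine ⟨![r 0, r 1 + a * r 2, r 2], _, xs_mem ι t 1 a, ?_⟩
      simp only [xs1]; gl4tac
    · refine ⟨r, _, mul_mem (xs_mem ι t 3 (a * r 0)) (xs_mem ι t 2 a), ?_⟩
      simp only [xs2, xs3]; gl4tac
    · refine ⟨![r 0, r 1, r 2 + a], 1, one_mem _, ?_⟩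
      simp only [xs3, mul_one]; gl4tac
  uniq r r' g hg h := by
    have e : g = tr ((t⁻¹ : Kˣ) * ι (r 0 - r' 0)) ((t⁻¹ : Kˣ) * ι (r 1 - r' 1))
        ((t⁻¹ : Kˣ) * ι (r 2 - r' 2)) := by
      refine mul_left_cancel (h.symm.trans ?_)
      apply Units.ext
      simp only [Units.val_mul, tr, dil, mk4_mul, map_sub]
      congr 1 <;> simp
    have hm := entries_mem ι t P ht hι g hg
    rw [e] at hm
    have h0 := hP _ (hm 0 3)
    have h1 := hP _ (hm 1 3)
    have h2 := hP _ (hm 2 3)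
    ext i
    fin_cases i
    exacts [sub_eq_zero.mp h0, sub_eq_zero.mp h1, sub_eq_zero.mp h2]
  v n a := tr ((t : K) ^ n * ι (a 0)) ((t : K) ^ n * ι (a 1)) ((t : K) ^ n * ι (a 2))
  v_mem n a := by
    have : tr ((t : K) ^ n * ι (a 0)) ((t : K) ^ n * ι (a 1)) ((t : K) ^ n * ι (a 2)) =
        tr ((t : K) ^ n * ι (a 0)) 0 0 * tr 0 ((t : K) ^ n * ι (a 1)) 0 *
          tr 0 0 ((t : K) ^ n * ι (a 2)) := by gl4tac
    rw [this]
    exact mul_mem (mul_mem (tr_mem1 ι t _ (tr_mem2 ι t _ (tr_pow_mem ι t n _)))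
      (tr_mem2 ι t _ (tr_pow_mem ι t n _))) (tr_pow_mem ι t n _)
  v_zero a r := by gl4tac
  v_succ n a r := by gl4tac
  conj i a := by
    induction i using fin4_cases
    · refine ⟨_, xs_mem ι t 0 a, ?_⟩
      simp only [xs0]; gl4tac
    · refine ⟨_, xs_mem ι t 1 a, ?_⟩
      simp only [xs1]; gl4tac
    · refine ⟨_, xs_mem ι t 2 a, ?_⟩
      simp only [xs2]; gl4tac
    · refine ⟨_, tr_pow_mem ι t 1 a, ?_⟩
      simp only [xs3]; gl4tac

end Mat

open LaurentPolynomial in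
theorem exists_data (F : Type) [Field F] [Countable F] :
    ∃ (Γ : Type) (_ : Group Γ) (_ : Countable Γ), Nonempty (Data Γ F (Fin 3 → F)) := by
  have _ : Countable (LaurentPolynomial F) :=
    (show Function.Injective (fun f : LaurentPolynomial F => f.coeff) from
      fun a b h => AddMonoidAlgebra.ext h).countable
  have _ : Countable (Matrix (Fin 4) (Fin 4) (LaurentPolynomial F)) :=
    inferInstanceAs (Countable (Fin 4 → Fin 4 → LaurentPolynomial F))
  let t : (LaurentPolynomial F)ˣ := ⟨T 1, T (-1), by rw [← T_add]; simp, by rw [← T_add]; simp⟩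
  refine ⟨GL4 (LaurentPolynomial F), inferInstance, Units.val_injective.countable,
    ⟨mkData C t (Polynomial.toLaurent (R := F)).range ⟨Polynomial.X, Polynomial.toLaurent_X⟩
      (fun c => ⟨Polynomial.C c, Polynomial.toLaurent_C c⟩) ?_⟩⟩
  rintro c ⟨q, hq⟩
  have : Polynomial.X * q = Polynomial.C c := by
    apply Polynomial.toLaurent_injective
    rw [map_mul, hq, Polynomial.toLaurent_X, Polynomial.toLaurent_C, ← mul_assoc]
    show T 1 * T (-1) * C c = C c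
    rw [← T_add]; simp
  have h2 := congrArg (Polynomial.coeff · 0) this
  simpa using h2.symm

end Crest.Agent.R73
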