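import Mathlib
import Crest.Agent.R73.Final
import Crest.Agent.R73.Cuntz

/-!
Assembly: a group with the data `Data` has a full group C⋆-algebra that does not embed into an
ultrapower of the concrete algebra on two isometries.
-/

set_option autoImplicit false

namespace Crest.Agent.R73

open scoped InnerProductSpace
open Finset Filter Topology Crest.AnalysisR.CStarEmbedding

namespace Data

variable {Γ : Type} [Group Γ] {F : Type} [Field F] {R : Type} [AddCommGroup R] (D : Data Γ F R)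
  [Fintype R] [Fintype F]

theorem comb_lower [Nontrivial R] : (Fintype.card (Fin 4 × F) : ℝ) * Fintype.card R ≤
    ‖D.comb fun g => (permRep Γ (Γ ⧸ D.G) g : L2 (Γ ⧸ D.G) →L[ℂ] L2 (Γ ⧸ D.G))‖ := by
  classical
  let π : Γ → L2 (Γ ⧸ D.G) →L[ℂ] L2 (Γ ⧸ D.G) := fun g => permRep Γ (Γ ⧸ D.G) g
  have hπ : ∀ g h v, π (g * h) v = π g (π h v) := by intro g h v; simp [π]
  let d : R → L2 (Γ ⧸ D.G) := fun a => dl (D.τ a : Γ ⧸ D.G)
  have hd : ∀ (g : D.G) a, π g (d a) = d (D.act g a) := by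
    intro g a
    simp only [π, d, permRep_dl, MulAction.Quotient.smul_mk, smul_eq_mul, D.spec]
    rw [QuotientGroup.mk_mul_of_mem _ (D.res g a).2]
  have hs : ∀ g : D.G, π g (∑ a, d a) = ∑ a, d a := by
    intro g
    simp only [map_sum, hd]
    exact D.sum_sm 0 g d
  let η := Fintype.card R • d 0 - ∑ a, d a
  let ζ := π (D.τ 0)⁻¹ η
  have h1 : ∀ g : D.G, π g ζ = ζ := by
    intro g
    obtain ⟨g', hg'⟩ := D.conj_all g
    have e : (g : Γ) * (D.τ 0)⁻¹ = (D.τ 0)⁻¹ * g' := by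
      rw [eq_inv_mul_iff_mul_eq, ← mul_assoc, hg']; simp
    simp only [ζ]
    rw [← hπ, e, hπ]
    congr 1
    simp only [η, map_sub, map_nsmul, hs, hd, (D.act_res_eq hg'.symm).1]
  have h2 : ∑ a, π (D.τ a) ζ = 0 := by
    have : ∀ a, π (D.τ a) ζ = Fintype.card R • d a - ∑ a, d a := by
      intro a
      have e := D.v_zero a 0
      rw [zero_add] at e
      have e' : D.τ a * (D.τ 0)⁻¹ = D.vG 0 a := by rw [← e]; simp
      simp only [ζ]
      rw [← hπ, e']
      simp only [η, map_sub, map_nsmul, hs, hd,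
        (D.act_res_eq (g := D.vG 0 a) (g' := 1) (r := 0) (r' := a) (by simpa using e)).1]
    simp only [this, sum_sub_distrib, ← smul_sum, sum_const, card_univ, sub_self]
  have h3 : ζ ≠ 0 := by
    intro h
    have h' : η = 0 := by
      have := congrArg (π (D.τ 0)) h
      simp only [ζ] at this
      rw [← hπ] at this
      simpa [π] using this
    obtain ⟨a, ha⟩ := exists_ne (0 : R)
    have hinj : ∀ a b : R, (D.τ a : Γ ⧸ D.G) = D.τ b ↔ a = b := by
      intro a b
      refine ⟨fun h => ?_, fun h => h ▸ rfl⟩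
      rw [QuotientGroup.eq] at h
      exact (D.uniq b a _ h (by simp)).symm
    have := congrArg (fun v => ⟪d a, v⟫_ℂ) h'
    simp only [η, d, inner_sub_right, inner_sum, ← Nat.cast_smul_eq_nsmul ℂ, inner_smul_right,
      inner_dl, hinj, if_neg ha] at this
    simp at this
  have h4 : (D.comb π) ζ = (Fintype.card (Fin 4 × F) * Fintype.card R) • ζ := by
    have e := D.comb_map (ContinuousLinearMap.apply ℂ (L2 (Γ ⧸ D.G)) ζ :
      (L2 (Γ ⧸ D.G) →L[ℂ] L2 (Γ ⧸ D.G)) →+ L2 (Γ ⧸ D.G)) π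
    refine e.trans ?_
    have : ∀ s : Fin 4 × F, Fintype.card R • π (D.x s.1 s.2) ζ -
        ∑ a : R, π (D.x s.1 s.2 * ((D.τ 0)⁻¹ * D.τ a)) ζ = Fintype.card R • ζ := by
      intro s
      simp only [hπ, ← map_sum, h2, map_zero, sub_zero]
      rw [show π (D.x s.1 s.2) ζ = ζ from h1 (D.xG s.1 s.2)]
    refine (Finset.sum_congr rfl fun s _ => this s).trans ?_
    rw [sum_const, card_univ, smul_smul]
  have h5 := (D.comb π).le_opNorm ζ
  rw [h4, ← Nat.cast_smul_eq_nsmul ℂ, norm_smul, Complex.norm_natCast] at h5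
  push_cast at h5 ⊢
  exact le_of_mul_le_mul_right h5 (norm_pos_iff.mpr h3)

end Data

section Rel

variable {ω : Ultrafilter ℕ} {A O : Type} [CStarAlgebra A] [CStarAlgebra O] {φ : ℕ → A → O}

/-- `b` represents the image of `a` in the ultrapower -/
def Rel (ω : Ultrafilter ℕ) (φ : ℕ → A → O) (a : A) (b : ℕ → O) : Prop :=
  Tendsto (fun k => φ k a - b k) ω (𝓝 0)

omit [CStarAlgebra A] in
theorem Rel.refl (a : A) : Rel ω φ a fun k => φ k a := by simp [Rel]

theorem Rel.add (h : IsUltrapowerEmbedding ω A O φ) {a a' : A} {b b' : ℕ → O} (h1 : Rel ω φ a b)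
    (h2 : Rel ω φ a' b') : Rel ω φ (a + a') fun k => b k + b' k := by
  have := ((tendsto_zero_iff_norm_tendsto_zero.mpr (h.2.1 a a')).add h1).add h2
  simp only [add_zero] at this
  refine this.congr fun k => ?_
  beta_reduce
  abel

theorem Rel.smul (h : IsUltrapowerEmbedding ω A O φ) (c : ℂ) {a : A} {b : ℕ → O}
    (h1 : Rel ω φ a b) : Rel ω φ (c • a) fun k => c • b k := by
  have := (tendsto_zero_iff_norm_tendsto_zero.mpr (h.2.2.1 c a)).add (h1.const_smul c)
  simp only [smul_zero, add_zero] at this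
  refine this.congr fun k => ?_
  rw [smul_sub]; abel

theorem Rel.sum (h : IsUltrapowerEmbedding ω A O φ) {ι : Type} (s : Finset ι) {a : ι → A}
    {b : ι → ℕ → O} (h1 : ∀ i, Rel ω φ (a i) (b i)) :
    Rel ω φ (∑ i ∈ s, a i) fun k => ∑ i ∈ s, b i k := by
  classical
  induction s using Finset.induction_on with
  | empty => simpa using Rel.smul h 0 (Rel.refl 0)
  | insert i s hi ih => simpa only [sum_insert hi] using Rel.add h (h1 i) ih

theorem Rel.sub (h : IsUltrapowerEmbedding ω A O φ) {a a' : A} {b b' : ℕ → O} (h1 : Rel ω φ a b)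
    (h2 : Rel ω φ a' b') : Rel ω φ (a - a') fun k => b k - b' k := by
  simpa [sub_eq_add_neg] using Rel.add h h1 (Rel.smul h (-1) h2)

theorem Rel.nsmul (h : IsUltrapowerEmbedding ω A O φ) (c : ℕ) {a : A} {b : ℕ → O}
    (h1 : Rel ω φ a b) : Rel ω φ (c • a) fun k => c • b k := by
  simpa [Nat.cast_smul_eq_nsmul] using Rel.smul h c h1

theorem Rel.norm (h : IsUltrapowerEmbedding ω A O φ) {a : A} {b : ℕ → O} (h1 : Rel ω φ a b) :
    Tendsto (fun k => ‖b k‖) ω (𝓝 ‖a‖) := by
  refine tendsto_of_tendsto_of_dist (h.2.2.2.2.2.2 a) ?_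
  exact squeeze_zero (fun k => dist_nonneg) (fun k => dist_norm_norm_le _ _)
    (tendsto_zero_iff_norm_tendsto_zero.mp h1)

end Rel

theorem asymRep_of_embedding {ω : Ultrafilter ℕ} {Γ : Type} [Group Γ] {A O : Type} [CStarAlgebra A]
    [CStarAlgebra O] {H : Type} [NormedAddCommGroup H] [InnerProductSpace ℂ H] [CompleteSpace H]
    (j : O →⋆ₐ[ℂ] (H →L[ℂ] H)) (hj : ∀ x, ‖j x‖ = ‖x‖)
    (u : Γ →* unitary A) {φ : ℕ → A → O} (h : IsUltrapowerEmbedding ω A O φ) :
    AsymRep (E := fun _ => H) ω fun k g => j (φ k (u g)) where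
  bdd g := by simp only [hj]; exact h.1 _
  mul g g' := by
    have := h.2.2.2.1 (u g) (u g')
    simp only [← map_mul j, ← map_sub j, hj, map_mul u, Submonoid.coe_mul]
    exact this
  one := by
    simp only [← map_one j, ← map_sub j, hj, map_one u, OneMemClass.coe_one]
    exact h.2.2.2.2.2.1
  iso g := by
    refine ⟨fun k => ‖star (φ k (u g)) * φ k (u g) - 1‖, ?_, fun k v => ?_⟩
    · obtain ⟨C, hC⟩ := h.1 (u g)
      have a1 := h.2.2.2.1 (star (u g : A)) (u g)
      have a2 := h.2.2.2.2.1 (u g : A)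
      have a3 := h.2.2.2.2.2.1
      rw [Unitary.star_mul_self_of_mem (u g).2] at a1
      refine squeeze_zero (fun k => norm_nonneg _) (fun k => ?_)
        (by simpa using (a1.add a3).add (a2.mul_const C))
      have e : star (φ k (u g)) * φ k (u g) - 1 =
          -(φ k 1 - φ k (star (u g : A)) * φ k (u g)) + (φ k 1 - 1) +
            -((φ k (star (u g : A)) - star (φ k (u g))) * φ k (u g)) := by noncomm_ring
      rw [e]
      refine norm_add₃_le.trans ?_
      rw [norm_neg, norm_neg]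
      exact add_le_add le_rfl
        ((norm_mul_le _ _).trans (mul_le_mul_of_nonneg_left (hC k) (norm_nonneg _)))
    · beta_reduce
      rw [← hj, map_sub, map_mul, map_star, map_one]
      set T : H →L[ℂ] H := j (φ k (u g))
      have e : ‖T v‖ ^ 2 - ‖v‖ ^ 2 = RCLike.re ⟪(star T * T - 1) v, v⟫_ℂ := by
        rw [_root_.sub_apply, inner_sub_left, map_sub, mul_apply_eq_comp,
          ContinuousLinearMap.star_eq_adjoint, ContinuousLinearMap.adjoint_inner_left,
          inner_self_eq_norm_sq]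
        exact congrArg _ (inner_self_eq_norm_sq (𝕜 := ℂ) v).symm
      rw [e]
      refine (RCLike.abs_re_le_norm _).trans ((norm_inner_le_norm _ _).trans ?_)
      rw [sq, ← mul_assoc]
      gcongr
      exact ContinuousLinearMap.le_opNorm _ _

theorem not_embeds {Γ : Type} [Group Γ] {F : Type} [Field F] {R : Type} [AddCommGroup R]
    (D : Data Γ F R) [Fintype R] [Fintype F] [Nontrivial R] (hF : 400 ≤ Fintype.card F)
    {A : Type} [CStarAlgebra A] (u : Γ →* unitary A) (hu : IsFullGroupCStar A u)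
    {O : Type} [CStarAlgebra O] (j : O →⋆ₐ[ℂ] (L2 Om →L[ℂ] L2 Om)) (hj : ∀ x, ‖j x‖ = ‖x‖)
    (hO : ∀ x, j x ∈ Gen SS)
    (ω : Ultrafilter ℕ) (hω : ∀ n : ℕ, (ω : Filter ℕ) ≠ pure n) :
    ¬ ∃ φ : ℕ → A → O, IsUltrapowerEmbedding ω A O φ := by
  rintro ⟨φ, h⟩
  have hω' : Tendsto (fun k : ℕ => 1 / ((k : ℝ) + 1)) ω (𝓝 0) := by
    rcases ω.le_cofinite_or_eq_pure with h | ⟨n, h⟩
    · rw [Nat.cofinite_eq_atTop] at h
      exact tendsto_one_div_add_atTop_nhds_zero_nat.mono_left h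
    · exact absurd (by rw [h]; rfl) (hω n)
  have hU := asymRep_of_embedding j hj u h
  have hc : (Fintype.card (Fin 4 × F) : ℝ) * Fintype.card R ≤ ‖D.comb fun g => (u g : A)‖ := by
    obtain ⟨ψ, hψ⟩ := hu.2 _ (permRep Γ (Γ ⧸ D.G))
    refine D.comb_lower.trans (le_trans (le_of_eq ?_) (NonUnitalStarAlgHom.norm_apply_le ψ _))
    congr 1
    refine Eq.trans ?_ (D.comb_map (ψ : A →+ (L2 (Γ ⧸ D.G) →L[ℂ] L2 (Γ ⧸ D.G))) _).symm
    congr 1
    ext1 g
    exact (hψ g).symm
  have hrel : Rel ω φ (D.comb fun g => (u g : A)) fun k => D.comb fun g => φ k (u g) :=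
    Rel.sum h _ fun s => Rel.sub h (Rel.nsmul h _ (Rel.refl _)) (Rel.sum h _ fun a => Rel.refl _)
  have hlim : Tendsto (fun k => ‖D.comb fun g => j (φ k (u g))‖) ω
      (𝓝 ‖D.comb fun g => (u g : A)‖) := by
    refine (hrel.norm h).congr fun k => ?_
    have : j (D.comb fun g => φ k (u g)) = D.comb fun g => j (φ k (u g)) :=
      D.comb_map (j : O →+ (L2 Om →L[ℂ] L2 Om)) fun g => φ k (u g)
    rw [← this, hj]
  have h1 := D.all_levels hω' hF hU hc hlim ((1 / 100) ^ 2) (by norm_num) (by norm_num)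
  have h2 : ∀ᶠ k in ω, ∀ s : Fin 4 × F, ‖φ k (u (D.x s.1 s.2))‖ ≤ 101 / 100 := by
    refine eventually_all.mpr fun s => ?_
    refine (h.2.2.2.2.2.2 _).eventually (ge_mem_nhds ?_)
    have : ‖(u (D.x s.1 s.2) : A)‖ ≤ 1 := by
      rcases subsingleton_or_nontrivial A with hA | hA
      · rw [Subsingleton.elim (u _ : A) 0]; simp
      · exact (CStarRing.norm_coe_unitary _).le
    linarith
  obtain ⟨k, hk1, hk2⟩ := (h1.and h2).exists
  have h3 : ∀ᶠ N in atTop, ∀ s : Fin 4 × F,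
      ‖Theta (eN N) (rN SS N) (j (φ k (u (D.x s.1 s.2)))) - j (φ k (u (D.x s.1 s.2)))‖ ≤ 1 / 100 := by
    refine eventually_all.mpr fun s => ?_
    have := tendsto_iff_norm_sub_tendsto_zero.mp (tendsto_Theta_Gen (hO (φ k (u (D.x s.1 s.2)))))
    exact this.eventually (ge_mem_nhds (by norm_num))
  obtain ⟨N, hN⟩ := h3.exists
  exact D.no_all_levels hF (fun g => j (φ k (u g))) (fun i a => (hj _).trans_le (hk2 (i, a)))
    (eN N) (orthonormal_eN N) (rN SS N) (sum_rN isCuntz_SS N) (fun i a => hN (i, a)) hk1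

end Crest.Agent.R73
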